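import Crest.Agent.Dft.Rec

/-! Solving the recursion. -/

set_option autoImplicit false

namespace Crest.Agent.Dft
open Finset Complex Matrix

theorem good_bound' {θ : ℝ} (hθ0 : 0 ≤ θ)
    (hlam : (4096 - 560 ^ 2 * 352 / 2 ^ 39 : ℝ) ≤ (4096 : ℝ) ^ θ)
    {H16 : Type} [Fintype H16] [DecidableEq H16] (hH : Fintype.card H16 = 16) :
    ∃ D : ℝ, 0 ≤ D ∧ ∀ (V : Type) [AddCommGroup V] [Module ℂ V] (k : ℕ), 1 ≤ k →
    Good V k (D * (k : ℝ) ^ θ) := by
  obtain ⟨c, hc⟩ : ∃ c : ℝ, c = netLin (Fintype.card (Edge H16)) / 2 ^ 39 + 4 * 4096 := ⟨_, rfl⟩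
  have hc0 : 0 ≤ c := by
    rw [hc]; unfold netLin Sys.gadgetLin; positivity
  refine ⟨c + 4 * 4096, by positivity, fun V _ _ k hk => ?_⟩
  suffices h : Good V k ((c + 4 * 4096) * (k : ℝ) ^ θ - c) from h.le (by linarith)
  induction k using Nat.strong_induction_on with
  | _ k ih =>
    have hk1 : (1 : ℝ) ≤ (k : ℝ) ^ θ := Real.one_le_rpow (by exact_mod_cast hk) hθ0
    by_cases hk' : k < 4096
    · refine (good_base k).le ?_
      have : (k : ℝ) ≤ 4096 := by exact_mod_cast hk'.le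
      nlinarith
    · have hr : 1 ≤ k / 4096 := by omega
      have := good_step hH (ih (k / 4096) (by omega) hr) hr
        (k := k) (by omega) (by omega)
      refine this.le ?_
      rw [← hc]
      have h1 : (4096 : ℝ) ^ θ * ((k / 4096 : ℕ) : ℝ) ^ θ ≤ (k : ℝ) ^ θ := by
        rw [← Real.mul_rpow (by norm_num) (by positivity)]
        refine Real.rpow_le_rpow (by positivity) ?_ hθ0
        exact_mod_cast Nat.mul_div_le k 4096
      have h2 : (0 : ℝ) ≤ ((k / 4096 : ℕ) : ℝ) ^ θ := by positivity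
      have h3 := mul_le_mul_of_nonneg_right hlam h2
      have h4 := mul_le_mul_of_nonneg_left (h3.trans h1) (show 0 ≤ c + 4 * 4096 by positivity)
      nlinarith

lemma lam_le {δ : ℝ} (h0 : 0 ≤ δ) (hδ : δ ≤ 1 / 1000000000) :
    (4096 - 560 ^ 2 * 352 / 2 ^ 39 : ℝ) ≤ (4096 : ℝ) ^ (1 - δ) := by
  rw [sub_eq_add_neg 1, Real.rpow_add (by norm_num), Real.rpow_one,
    Real.rpow_def_of_pos (by norm_num)]
  have h1 : Real.log 4096 ≤ 12 := by
    rw [show (4096 : ℝ) = 2 ^ 12 by norm_num, Real.log_pow]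
    have := Real.log_two_lt_d9
    push_cast; linarith
  have h2 := Real.add_one_le_exp (Real.log 4096 * -δ)
  have h3 := mul_le_mul_of_nonneg_right h1 h0
  linarith

theorem good_bound {δ : ℝ} (h0 : 0 ≤ δ) (hδ : δ ≤ 1 / 1000000000) :
    ∃ D : ℝ, 0 ≤ D ∧ ∀ (V : Type) [AddCommGroup V] [Module ℂ V] (k : ℕ), 1 ≤ k →
    Good V k (D * (k : ℝ) ^ (1 - δ)) :=
  good_bound' (by linarith) (lam_le h0 hδ) (H16 := Fin 16) (Fintype.card_fin 16)

end Crest.Agent.Dft
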