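import Mathlib
import Crest.Prelude.Def_LinCircuit

/-! Cost calculus for linear straight-line programs. -/

set_option autoImplicit false

namespace Crest.Agent.Dft
open Finset

variable {V : Type} [AddCommGroup V] [Module ℂ V]

/-- `Can c S T`: from the values `S` (and `0`) all values in `T` can be computed with at most
`c` gates. -/
inductive Can : ℝ → Set V → Set V → Prop
  | done {c : ℝ} {S T : Set V} : 0 ≤ c → T ⊆ insert 0 S → Can c S T
  | add {c : ℝ} {S T : Set V} (u v : V) : u ∈ insert 0 S → v ∈ insert 0 S →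
      Can (c - 1) (insert (u + v) S) T → Can c S T
  | smul {c : ℝ} {S T : Set V} (a : ℂ) (u : V) : u ∈ insert 0 S →
      Can (c - 1) (insert (a • u) S) T → Can c S T

lemma ins_sub {S S' : Set V} (h : S ⊆ insert 0 S') : insert 0 S ⊆ insert 0 S' :=
  Set.insert_subset (Set.mem_insert _ _) h

lemma ins_sub2 {S S' : Set V} (h : S ⊆ insert 0 S') (w : V) :
    insert w S ⊆ insert 0 (insert w S') := by
  intro x hx
  rcases hx with rfl | hx
  · simp
  · rcases h hx with h | h
    · simp [h]
    · simp [h]

namespace Can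

lemma nonneg {c : ℝ} {S T : Set V} (h : Can c S T) : 0 ≤ c := by
  induction h with
  | done h _ => exact h
  | add _ _ _ _ _ ih => linarith
  | smul _ _ _ _ ih => linarith

lemma mono {c : ℝ} {S T : Set V} (h : Can c S T) {c' : ℝ} {S' T' : Set V} (hc : c ≤ c')
    (hS : S ⊆ insert 0 S') (hT : T' ⊆ insert 0 T) : Can c' S' T' := by
  induction h generalizing c' S' with
  | done h0 h1 => exact done (h0.trans hc) (hT.trans ((ins_sub h1).trans (ins_sub hS)))
  | add u v hu hv _ ih =>
    exact add u v (ins_sub hS hu) (ins_sub hS hv) (ih (by linarith) (ins_sub2 hS _) hT)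
  | smul a u hu _ ih => exact smul a u (ins_sub hS hu) (ih (by linarith) (ins_sub2 hS _) hT)

lemma mono' {c : ℝ} {S T : Set V} (h : Can c S T) {c' : ℝ} {S' T' : Set V} (hc : c ≤ c')
    (hS : S ⊆ S') (hT : T' ⊆ T) : Can c' S' T' :=
  h.mono hc (hS.trans (Set.subset_insert _ _)) (hT.trans (Set.subset_insert _ _))

lemma le {c : ℝ} {S T : Set V} (h : Can c S T) {c' : ℝ} (hc : c ≤ c') : Can c' S T :=
  h.mono' hc le_rfl le_rfl

lemma trans {a b : ℝ} {S T U : Set V} (h : Can a S T) (h' : Can b (S ∪ T) U) :
    Can (a + b) S U := by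
  induction h with
  | done h0 h1 =>
    exact h'.mono (by linarith) (Set.union_subset (Set.subset_insert _ _) h1)
      (Set.subset_insert _ _)
  | add u v hu hv _ ih =>
    refine add u v hu hv ?_
    have := ih (h'.mono' le_rfl (Set.union_subset_union_left _ (Set.subset_insert _ _)) le_rfl)
    exact this.le (by linarith)
  | smul a u hu _ ih =>
    refine smul a u hu ?_
    have := ih (h'.mono' le_rfl (Set.union_subset_union_left _ (Set.subset_insert _ _)) le_rfl)
    exact this.le (by linarith)

lemma trans' {a b : ℝ} {S T U : Set V} (h : Can a S T) (h' : Can b T U) :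
    Can (a + b) S U :=
  h.trans (h'.mono' le_rfl Set.subset_union_right le_rfl)

lemma keep {a : ℝ} {S T : Set V} (h : Can a S T) : Can a S (S ∪ T) := by
  have := h.trans (U := S ∪ T) (done le_rfl (Set.subset_insert _ _))
  simpa using this

lemma union {a b : ℝ} {S T U : Set V} (h : Can a S T) (h' : Can b S U) :
    Can (a + b) S (T ∪ U) := by
  refine h.trans ?_
  have := (h'.mono' le_rfl (Set.subset_union_left (t := T)) le_rfl).keep
  refine this.mono' le_rfl le_rfl ?_
  intro x hx
  rcases hx with hx | hx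
  · exact Or.inl (Or.inr hx)
  · exact Or.inr hx

lemma biUnion {ι : Type*} (s : Finset ι) {c : ι → ℝ} {S : Set V} {T : ι → Set V}
    (h : ∀ i ∈ s, Can (c i) S (T i)) : Can (∑ i ∈ s, c i) S (⋃ i ∈ s, T i) := by
  classical
  induction s using Finset.induction_on with
  | empty => exact done (by simp) (by simp)
  | insert a s ha ih =>
    rw [Finset.sum_insert ha, Finset.set_biUnion_insert]
    exact (h a (by simp)).union (ih fun i hi => h i (by simp [hi]))

lemma iUnion {ι : Type*} [Fintype ι] {c : ℝ} {S : Set V} {T : ι → Set V}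
    (h : ∀ i, Can c S (T i)) : Can (Fintype.card ι * c) S (⋃ i, T i) := by
  have := biUnion (univ : Finset ι) (c := fun _ => c) (S := S) (T := T) (fun i _ => h i)
  simpa using this

lemma range {ι : Type*} [Fintype ι] {c : ℝ} {S : Set V} {f : ι → V}
    (h : ∀ i, Can c S {f i}) : Can (Fintype.card ι * c) S (Set.range f) := by
  have := iUnion h
  rwa [Set.iUnion_singleton_eq_range] at this

lemma add1 {S : Set V} {u v : V} (hu : u ∈ insert 0 S) (hv : v ∈ insert 0 S) :
    Can 1 S {u + v} :=
  add u v hu hv (done (by simp) (by simp))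

lemma smul1 {S : Set V} (a : ℂ) {u : V} (hu : u ∈ insert 0 S) : Can 1 S {a • u} :=
  smul a u hu (done (by simp) (by simp))

lemma lincomb {ι : Type*} (s : Finset ι) {S : Set V} (a : ι → ℂ) (u : ι → V)
    (hu : ∀ i ∈ s, u i ∈ insert 0 S) : Can (2 * s.card) S {∑ i ∈ s, a i • u i} := by
  classical
  induction s using Finset.induction_on with
  | empty => exact done (by simp) (by simp)
  | insert x s hx ih =>
    rw [Finset.sum_insert hx, Finset.card_insert_of_notMem hx]
    have h1 := (smul1 (a x) (hu x (by simp))).union (ih fun i hi => hu i (by simp [hi]))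
    have := h1.trans' (add1 (u := a x • u x) (v := ∑ i ∈ s, a i • u i) (by simp) (by simp))
    refine this.le (le_of_eq ?_)
    push_cast; ring

end Can

/-! ### Translation to circuits -/

open Crest.FourierCircuit

/-- The values available after the gates `gs`. -/
def vals {n : ℕ} (gs : List LGate) (x : Fin n → ℂ) : List ℂ :=
  gs.foldl (fun avail g => avail ++ [g.value avail]) (List.ofFn x ++ [0])

lemma vals_snoc {n : ℕ} (gs : List LGate) (g : LGate) (x : Fin n → ℂ) :
    vals (gs ++ [g]) x = vals gs x ++ [g.value (vals gs x)] := by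
  simp [vals, List.foldl_append]

lemma length_vals {n : ℕ} (gs : List LGate) (x : Fin n → ℂ) :
    (vals gs x).length = n + 1 + gs.length := by
  induction gs using List.reverseRecOn with
  | nil => simp [vals]
  | append_singleton gs g ih => rw [vals_snoc]; simp [ih]; ring

/-- Functionals available at some position. -/
def Avail (n : ℕ) (gs : List LGate) : Set ((Fin n → ℂ) → ℂ) :=
  {f | ∃ p < n + 1 + gs.length, ∀ x, (vals gs x).getD p 0 = f x}

lemma avail_snoc {n : ℕ} (gs : List LGate) (g : LGate) (f : (Fin n → ℂ) → ℂ)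
    (hf : ∀ x, g.value (vals gs x) = f x) :
    insert f (Avail n gs) ⊆ Avail n (gs ++ [g]) := by
  intro f' hf'
  rcases hf' with rfl | ⟨p, hp, h⟩
  · refine ⟨n + 1 + gs.length, by simp, fun x => ?_⟩
    rw [vals_snoc, List.getD_append_right _ _ _ _ (by rw [length_vals]), length_vals]
    simp [hf]
  · refine ⟨p, by simp; omega, fun x => ?_⟩
    rw [vals_snoc, List.getD_append _ _ _ _ (by rw [length_vals]; exact hp), h]

lemma can_gates {n : ℕ} {c : ℝ} {S T : Set ((Fin n → ℂ) → ℂ)} (h : Can c S T) :
    ∀ gs : List LGate, insert 0 S ⊆ Avail n gs →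
      ∃ gs' : List LGate, (gs'.length : ℝ) ≤ gs.length + c ∧ T ⊆ Avail n gs' := by
  induction h with
  | done h0 h1 => exact fun gs hgs => ⟨gs, by linarith, h1.trans hgs⟩
  | @add c S T u v hu hv _ ih =>
    intro gs hgs
    obtain ⟨p, -, hp⟩ := hgs hu
    obtain ⟨q, -, hq⟩ := hgs hv
    have := avail_snoc gs (LGate.add p q) (u + v) (fun x => by simp only [LGate.value, hp, hq]; rfl)
    obtain ⟨gs', h1, h2⟩ := ih (gs ++ [LGate.add p q]) (by
      rw [Set.insert_comm]; exact (Set.insert_subset_insert hgs).trans this)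
    refine ⟨gs', ?_, h2⟩
    simp at h1; linarith
  | @smul c S T a u hu _ ih =>
    intro gs hgs
    obtain ⟨p, -, hp⟩ := hgs hu
    have := avail_snoc gs (LGate.smul a p) (a • u) (fun x => by simp only [LGate.value, hp]; rfl)
    obtain ⟨gs', h1, h2⟩ := ih (gs ++ [LGate.smul a p]) (by
      rw [Set.insert_comm]; exact (Set.insert_subset_insert hgs).trans this)
    refine ⟨gs', ?_, h2⟩
    simp at h1; linarith

/-- A matrix acting on a vector of values. -/
def app {ι κ : Type*} [Fintype κ] (A : Matrix ι κ ℂ) (f : κ → V) : ι → V :=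
  fun i => ∑ j, A i j • f j

lemma app_mul {ι κ μ : Type*} [Fintype κ] [Fintype μ] (A : Matrix ι κ ℂ) (B : Matrix κ μ ℂ)
    (f : μ → V) : app (A * B) f = app A (app B f) := by
  funext i
  simp only [app, Matrix.mul_apply, Finset.sum_smul, Finset.smul_sum, mul_smul]
  exact Finset.sum_comm

lemma app_zero {ι κ : Type*} [Fintype κ] (A : Matrix ι κ ℂ) : app A (0 : κ → V) = 0 := by
  funext i; simp [app]

theorem exists_circuit {n : ℕ} {c : ℝ} (A : Matrix (Fin n) (Fin n) ℂ)
    (h : Can c (Set.range fun (i : Fin n) (x : Fin n → ℂ) => x i)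
      (Set.range (app A fun (i : Fin n) (x : Fin n → ℂ) => x i))) :
    ∃ P : LinCircuit n, P.Computes A ∧ (P.size : ℝ) ≤ c := by
  obtain ⟨gs, h1, h2⟩ := can_gates h [] (by
    intro f hf
    rcases hf with rfl | ⟨i, rfl⟩
    · refine ⟨n, by simp, fun x => ?_⟩
      simp [vals]
    · refine ⟨i, by have := i.2; simp only [List.length_nil]; omega, fun x => ?_⟩
      simp only [vals, List.foldl_nil]
      rw [List.getD_append _ _ _ _ (by simp)]
      simp)
  have h3 : ∀ k : Fin n, ∃ p, ∀ x, (vals gs x).getD p 0 = A.mulVec x k := by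
    intro k
    obtain ⟨p, -, hp⟩ := h2 ⟨k, rfl⟩
    refine ⟨p, fun x => ?_⟩
    rw [hp]
    simp [app, Matrix.mulVec, dotProduct]
  choose out hout using h3
  exact ⟨⟨gs, out⟩, fun x k => hout k x, by simpa [LinCircuit.size] using h1⟩

/-! ### Batched costs -/

variable (V) in
/-- Applying `A` to `W` vectors costs at most `c` in total. -/
def BC {ι : Type*} [Fintype ι] (c : ℝ) (W : ℕ) (A : Matrix ι ι ℂ) : Prop :=
  ∀ f : Fin W → ι → V, Can c (⋃ b, Set.range (f b)) (⋃ b, Set.range (app A (f b)))

lemma BC.of_type {ι : Type*} [Fintype ι] {c : ℝ} {W : ℕ} {A : Matrix ι ι ℂ} (B : Type*)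
    [Fintype B] (hB : Fintype.card B = W)
    (h : ∀ f : B → ι → V, Can c (⋃ b, Set.range (f b)) (⋃ b, Set.range (app A (f b)))) :
    BC V c W A := by
  intro f
  let e : B ≃ Fin W := Fintype.equivFinOfCardEq hB
  have := h (f ∘ e)
  refine this.mono' le_rfl ?_ ?_
  · exact Set.iUnion_subset fun b => Set.subset_iUnion (fun b => Set.range (f b)) (e b)
  · refine Set.iUnion_subset fun b => ?_
    have := Set.subset_iUnion (fun b => Set.range (app A ((f ∘ e) b))) (e.symm b)
    simpa using this

lemma BC.family {ι : Type*} [Fintype ι] {c : ℝ} {W : ℕ} {A : Matrix ι ι ℂ} (h : BC V c W A)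
    {B : Type*} [Fintype B] {q : ℕ} (hB : Fintype.card B ≤ q * W) (f : B → ι → V) :
    Can (q * c) (⋃ b, Set.range (f b)) (⋃ b, Set.range (app A (f b))) := by
  classical
  obtain ⟨e⟩ : Nonempty (B ↪ Fin q × Fin W) :=
    Function.Embedding.nonempty_of_card_le (by simpa using hB)
  let g : Fin q × Fin W → ι → V := Function.extend e f 0
  have h1 : ∀ a : Fin q, Can c (⋃ b, Set.range (f b)) (⋃ b, Set.range (app A (g (a, b)))) := by
    intro a
    refine (h fun b => g (a, b)).mono le_rfl ?_ (Set.subset_insert _ _)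
    refine Set.iUnion_subset fun b => ?_
    rintro _ ⟨i, rfl⟩
    by_cases hb : ∃ x, e x = (a, b)
    · obtain ⟨x, hx⟩ := hb
      right
      simp only [g, ← hx, e.injective.extend_apply]
      exact Set.mem_iUnion.2 ⟨x, i, rfl⟩
    · left
      simp only [g, Function.extend_apply' _ _ _ hb]
      rfl
  have h2 := Can.iUnion h1
  rw [Fintype.card_fin] at h2
  refine h2.mono' le_rfl le_rfl (Set.iUnion_subset fun b => ?_)
  intro x hx
  refine Set.mem_iUnion.2 ⟨(e b).1, Set.mem_iUnion.2 ⟨(e b).2, ?_⟩⟩
  simpa only [g, Prod.mk.eta, e.injective.extend_apply] using hx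

/-- Convolution along a free action is a family of copies of convolution on the group. -/
lemma BC.act {G : Type*} [AddCommGroup G] [Fintype G] {c : ℝ} {W : ℕ} (k : G → ℂ)
    (h : BC V c W (Matrix.of fun g g' : G => k (g' - g)))
    {Ω : Type*} [Fintype Ω] (act : G → Ω → Ω) (h0 : ∀ x, act 0 x = x)
    (hadd : ∀ g g' x, act (g + g') x = act g (act g' x)) (hfree : ∀ g x, act g x = x → g = 0)
    {q : ℕ} (hq : Fintype.card Ω ≤ q * W * Fintype.card G) (f : Ω → V) :
    Can (q * c) (Set.range f) (Set.range fun x => ∑ g, k g • f (act g x)) := by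
  classical
  letI : AddAction G Ω := { vadd := act, zero_vadd := h0, add_vadd := hadd }
  have hcard : Fintype.card (Quotient (AddAction.orbitRel G Ω)) * Fintype.card G
      = Fintype.card Ω := by
    rw [← Fintype.card_prod]
    refine Fintype.card_congr (AddAction.selfEquivOrbitsQuotientProd fun b => ?_).symm
    rw [eq_bot_iff]
    intro g hg
    exact hfree g b hg
  have hpos : 0 < Fintype.card G := Fintype.card_pos
  have hle : Fintype.card (Quotient (AddAction.orbitRel G Ω)) ≤ q * W := by
    rw [← hcard] at hq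
    exact Nat.le_of_mul_le_mul_right hq hpos
  have := h.family hle (fun b g => f (act g b.out))
  refine this.mono' le_rfl (Set.iUnion_subset fun b => ?_) ?_
  · rintro _ ⟨g, rfl⟩
    exact ⟨_, rfl⟩
  · rintro _ ⟨x, rfl⟩
    let b : Quotient (AddAction.orbitRel G Ω) := Quotient.mk _ x
    have hb : x ∈ AddAction.orbit G b.out := by
      have : (AddAction.orbitRel G Ω) x b.out :=
        Setoid.symm' _ (Quotient.mk_out (s := AddAction.orbitRel G Ω) x)
      exact this
    obtain ⟨g0, hg0⟩ := hb
    have hg0' : act g0 b.out = x := hg0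
    refine Set.mem_iUnion.2 ⟨b, g0, ?_⟩
    simp only [app, Matrix.of_apply]
    refine (Fintype.sum_equiv (Equiv.addRight g0) _ _ fun g => ?_).symm
    simp only [Equiv.coe_addRight, add_sub_cancel_right, hadd, hg0']

end Crest.Agent.Dft
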