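import Crest.Agent.Dft.Lay

/-! Fourier transforms over finite rings, the chirp factorisation and the radix-two FFT. -/

set_option autoImplicit false

namespace Crest.Agent.Dft
open Finset Complex Matrix

/-- Nondegenerate additive characters. -/
structure GoodChar {R : Type*} [CommRing R] [Fintype R] (ψ : R → ℂ) : Prop where
  add : ∀ a b, ψ (a + b) = ψ a * ψ b
  zero : ψ 0 = 1
  orth : ∀ d, d ≠ 0 → ∑ a, ψ (a * d) = 0

namespace GoodChar
variable {R : Type*} [CommRing R] [Fintype R] [DecidableEq R] {ψ : R → ℂ}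

lemma sum (h : GoodChar ψ) (d : R) :
    ∑ a, ψ (a * d) = if d = 0 then (Fintype.card R : ℂ) else 0 := by
  split_ifs with hd
  · simp [hd, h.zero]
  · exact h.orth d hd

lemma ne_zero (h : GoodChar ψ) (a : R) : ψ a ≠ 0 := by
  have := h.add a (-a)
  rw [add_neg_cancel, h.zero] at this
  exact left_ne_zero_of_mul_eq_one this.symm

lemma inv (h : GoodChar ψ) (x : R → ℂ) (i : R) :
    ∑ a, ψ (-i * a) * ∑ j, ψ (a * j) * x j = Fintype.card R * x i := by
  simp only [Finset.mul_sum]
  rw [Finset.sum_comm]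
  have : ∀ j, ∑ a, ψ (-i * a) * (ψ (a * j) * x j) = if j = i then Fintype.card R * x j else 0 := by
    intro j
    have h1 : ∀ a, ψ (-i * a) * (ψ (a * j) * x j) = ψ (a * (j - i)) * x j := fun a => by
      rw [← mul_assoc, ← h.add]; congr 2; ring
    simp only [h1, ← Finset.sum_mul, h.sum, sub_eq_zero, ite_mul, zero_mul]
  simp only [this, Finset.sum_ite_eq', Finset.mem_univ, if_true]

lemma prod {S : Type*} [CommRing S] [Fintype S] {φ : S → ℂ} (h : GoodChar ψ) (h' : GoodChar φ) :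
    GoodChar (fun p : R × S => ψ p.1 * φ p.2) where
  add a b := by simp only [Prod.fst_add, Prod.snd_add, h.add, h'.add]; ring
  zero := by simp [h.zero, h'.zero]
  orth d hd := by
    simp only [Prod.fst_mul, Prod.snd_mul, Fintype.sum_prod_type, ← Finset.sum_mul_sum]
    by_cases h1 : d.1 = 0
    · rw [h'.orth d.2 fun h2 => hd (Prod.ext h1 h2), mul_zero]
    · rw [h.orth d.1 h1, zero_mul]

lemma pi {J : Type*} [Fintype J] [DecidableEq J] {S : J → Type*} [∀ j, CommRing (S j)]
    [∀ j, Fintype (S j)] {φ : ∀ j, S j → ℂ} (h : ∀ j, GoodChar (φ j)) :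
    GoodChar (fun x : ∀ j, S j => ∏ j, φ j (x j)) where
  add a b := by simp only [Pi.add_apply, (h _).add, Finset.prod_mul_distrib]
  zero := by simp [(h _).zero]
  orth d hd := by
    obtain ⟨j, hj⟩ := Function.ne_iff.1 hd
    simp only [Pi.mul_apply]
    rw [← Fintype.piFinset_univ, ← Finset.prod_univ_sum (fun _ => univ) fun j a => φ j (a * d j)]
    exact Finset.prod_eq_zero (Finset.mem_univ j) ((h j).orth _ hj)

theorem chirp (h : GoodChar ψ) (n : ℕ) (hinj : ∀ d : ℤ, |d| < 2 * n → (d : R) = 0 → d = 0)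
    {ζ : ℂ} (hζ : ζ ≠ 0) :
    ∃ (d : ℕ → ℂ) (Λ : R → ℂ), (∀ a, Λ a ≠ 0) ∧ ∀ i < n, ∀ j < n,
      ζ ^ (i * j) = d i * d j * ∑ a, ψ (-(i : R) * a) * (Λ a * ψ (a * j)) := by
  obtain ⟨η, rfl⟩ := IsAlgClosed.exists_pow_nat_eq ζ (n := 2) (by norm_num)
  have hη : η ≠ 0 := by rintro rfl; simp at hζ
  have hc : (Fintype.card R : ℂ) ≠ 0 := Nat.cast_ne_zero.2 Fintype.card_ne_zero
  let Λ0 : R → ℂ := fun a => ∑ e ∈ Finset.Ioo (-(n : ℤ)) n,
    η ^ (-e ^ 2) / Fintype.card R * ψ (a * e)
  obtain ⟨μ, hμ⟩ := Infinite.exists_notMem_finset (univ.image fun a => -Λ0 a / ψ (a * n))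
  refine ⟨fun i => η ^ (i ^ 2), fun a => Λ0 a + μ * ψ (a * n), fun a ha => hμ ?_,
    fun i hi j hj => ?_⟩
  · refine Finset.mem_image.2 ⟨a, Finset.mem_univ _, ?_⟩
    have := h.ne_zero (a * n)
    field_simp
    linear_combination -ha
  · have key : ∀ e : ℤ, |e + j - i| < 2 * n → ∑ a, ψ (-(i : R) * a) * (ψ (a * e) * ψ (a * j)) =
        if e = i - j then (Fintype.card R : ℂ) else 0 := by
      intro e he
      have h1 : ∀ a, ψ (-(i : R) * a) * (ψ (a * e) * ψ (a * j)) =
          ψ (a * ((e + j - i : ℤ) : R)) := fun a => by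
        rw [← h.add, ← h.add]; congr 1; push_cast; ring
      simp only [h1, h.sum]
      refine if_congr ⟨fun h2 => ?_, fun h2 => ?_⟩ rfl rfl
      · have := hinj _ he h2
        omega
      · rw [h2]; simp
    have h2 : ∑ a, ψ (-(i : R) * a) * ((Λ0 a + μ * ψ (a * n)) * ψ (a * j)) =
        ∑ e ∈ Finset.Ioo (-(n : ℤ)) n, η ^ (-e ^ 2) / Fintype.card R *
          ∑ a, ψ (-(i : R) * a) * (ψ (a * e) * ψ (a * j)) +
        μ * ∑ a, ψ (-(i : R) * a) * (ψ (a * ((n : ℤ) : R)) * ψ (a * j)) := by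
      simp only [Λ0, add_mul, mul_add, Finset.sum_add_distrib, Finset.mul_sum, Finset.sum_mul]
      congr 1
      · rw [Finset.sum_comm]
        exact Finset.sum_congr rfl fun _ _ => Finset.sum_congr rfl fun _ _ => by ring
      · exact Finset.sum_congr rfl fun _ _ => by push_cast; ring
    rw [h2, key n (by rw [abs_lt]; omega), if_neg (by omega), mul_zero, add_zero,
      Finset.sum_eq_single ((i : ℤ) - j), key _ (by rw [abs_lt]; omega), if_pos rfl]
    · simp only []
      rw [div_mul_cancel₀ _ hc, ← pow_mul, ← zpow_natCast η (2 * _), ← zpow_natCast η (i ^ 2),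
        ← zpow_natCast η (j ^ 2), ← zpow_add₀ hη, ← zpow_add₀ hη]
      congr 1
      push_cast; ring
    · intro e he hne
      rw [Finset.mem_Ioo] at he
      rw [key e (by rw [abs_lt]; omega), if_neg hne, mul_zero]
    · intro hh
      exact absurd (Finset.mem_Ioo.2 (by omega)) hh

end GoodChar

/-- The standard character of `ZMod N`. -/
noncomputable def psi (N : ℕ) [NeZero N] (a : ZMod N) : ℂ := ZMod.stdAddChar a

lemma goodChar_psi (N : ℕ) [NeZero N] : GoodChar (psi N) where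
  add a b := AddChar.map_add_eq_mul _ a b
  zero := AddChar.map_zero_eq_one _
  orth d hd := by
    have := AddChar.sum_mulShift d (ZMod.isPrimitive_stdAddChar N)
    rw [if_neg hd] at this
    simpa [psi] using this

lemma psi_mul (N : ℕ) [NeZero N] (a b : ZMod N) :
    psi N (a * b) = exp (2 * Real.pi * I / N) ^ (a.val * b.val) := by
  have : a * b = ((a.val * b.val : ℕ) : ℤ) := by simp
  rw [psi, this, ZMod.stdAddChar_coe, ← Complex.exp_nat_mul]
  congr 1
  push_cast; ring

theorem fft_fin (l : ℕ) : ∀ ζ : ℂ, IsPrimitiveRoot ζ (2 ^ l) →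
    SL (2 * l) (fun (x : Fin (2 ^ l) → ℂ) i => ∑ j, ζ ^ (i.val * j.val) * x j) := by
  induction l with
  | zero =>
    intro ζ _
    refine (SL.mon (fun _ => 1) id).congr fun x i => ?_
    have : ∀ j : Fin (2 ^ 0), j = i := fun j => Subsingleton.elim (α := Fin 1) _ _
    have hi : i.val = 0 := by have := i.2; omega
    rw [Finset.sum_eq_single i (fun j _ hj => absurd (this j) hj)
      (fun h => absurd (Finset.mem_univ i) h)]
    simp [hi]
  | succ l ih =>
    intro ζ hζ
    have h2 : IsPrimitiveRoot (ζ ^ 2) (2 ^ l) := hζ.pow (by positivity) (pow_succ' 2 l)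
    have hm : ζ ^ 2 ^ l = -1 := (hζ.pow (by positivity) (pow_succ 2 l)).eq_neg_one_of_two_right
    have h3 := (ih _ h2).prod (P := Fin 2)
    have s1 : SL 1 _ := SL.shear (fun p : Fin 2 × Fin (2 ^ l) => (p.1.rev, p.2))
      (fun p => if p.1 = 0 then ζ ^ p.2.val else 0) (by simp) (by
        rintro ⟨a, i⟩; fin_cases a <;> simp)
    have s2 : SL 1 _ := SL.shear (fun p : Fin 2 × Fin (2 ^ l) => (p.1.rev, p.2))
      (fun p => if p.1 = 0 then 0 else 1) (by simp) (by
        rintro ⟨a, i⟩; fin_cases a <;> simp)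
    have s3 := SL.mon (fun p : Fin 2 × Fin (2 ^ l) => if p.1 = 0 then 1 else -2 * ζ ^ p.2.val) id
    have h4 := s2.comp (s3.comp (s1.comp h3))
    let e : Fin 2 × Fin (2 ^ l) ≃ Fin (2 ^ (l + 1)) :=
      finProdFinEquiv.trans (finCongr (pow_succ' 2 l).symm)
    let e' : Fin (2 ^ l) × Fin 2 ≃ Fin (2 ^ (l + 1)) :=
      finProdFinEquiv.trans (finCongr (pow_succ 2 l).symm)
    refine ((h4.transport e fun p => e' p.swap).le (by omega)).congr fun x k => ?_
    obtain ⟨⟨a, i⟩, rfl⟩ := e.surjective k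
    rw [← e'.sum_comp, Fintype.sum_prod_type, Finset.sum_comm, Fin.sum_univ_two]
    have he : (e (a, i)).val = i + 2 ^ l * a := rfl
    have he' : ∀ j b, (e' (j, b)).val = b + 2 * j := fun _ _ => rfl
    have h1 : ζ ^ (2 * 2 ^ l) = 1 := by rw [mul_comm, pow_mul, hm]; norm_num
    have e0 : ∀ j : Fin (2 ^ l), ζ ^ ((e (a, i)).val * (e' (j, 0)).val) = (ζ ^ 2) ^ (i.val * j.val) := by
      intro j
      have : (e (a, i)).val * (e' (j, 0)).val =
          2 * (i.val * j.val) + 2 * 2 ^ l * (a.val * j.val) := by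
        rw [he, he']; simp; ring
      rw [this, pow_add, pow_mul _ (2 * 2 ^ l), h1, one_pow, mul_one, pow_mul]
    have e1 : ∀ j : Fin (2 ^ l), ζ ^ ((e (a, i)).val * (e' (j, 1)).val) =
        (-1) ^ a.val * ζ ^ i.val * (ζ ^ 2) ^ (i.val * j.val) := by
      intro j
      have : (e (a, i)).val * (e' (j, 1)).val =
          2 ^ l * a.val + i.val + (e (a, i)).val * (e' (j, 0)).val := by
        rw [he, he', he']; simp; ring
      rw [this, pow_add, pow_add, pow_mul _ (2 ^ l), hm, e0]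
    simp only [e0, e1, Equiv.symm_apply_apply, id, Prod.swap, mul_assoc, ← Finset.mul_sum]
    fin_cases a
    · simp
    · simp; ring

theorem fft_zmod (l : ℕ) :
    SL (2 * l) (fun (x : ZMod (2 ^ l) → ℂ) i => ∑ j, psi (2 ^ l) (i * j) * x j) := by
  let e : Fin (2 ^ l) ≃ ZMod (2 ^ l) :=
    { toFun := fun i => (i.val : ZMod (2 ^ l))
      invFun := fun z => ⟨z.val, ZMod.val_lt z⟩
      left_inv := fun i => Fin.ext (ZMod.val_cast_of_lt i.2)
      right_inv := fun z => ZMod.natCast_zmod_val z }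
  have := (fft_fin l _ (Complex.isPrimitiveRoot_exp (2 ^ l) (by positivity))).transport e e
  refine this.congr fun x k => ?_
  rw [← e.sum_comp]
  refine Finset.sum_congr rfl fun j _ => ?_
  rw [psi_mul]
  congr 3
  exact ZMod.val_cast_of_lt j.2

end Crest.Agent.Dft
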