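import Crest.Agent.Dft.Walsh

/-! Directional symbols and orthonormal frames over the field with two elements. -/

set_option autoImplicit false

namespace Crest.Agent.Dft
open Finset Complex Matrix

variable {V : Type} [AddCommGroup V] [Module ℂ V]

/-- Orthonormal families. -/
def ON {ι M : Type*} [Fintype M] [DecidableEq ι] (b : ι → M → F2) : Prop :=
  ∀ i j, b i ⬝ᵥ b j = if i = j then 1 else 0

section
variable {M : Type*} [Fintype M] [DecidableEq M]

lemma ON.std : ON (fun p : M => (Pi.single p 1 : M → F2)) := by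
  intro i j
  simp [Pi.single_apply, eq_comm]

lemma ON.complete {b : M → M → F2} (hb : ON b) (w : M → F2) :
    ∑ p, (b p ⬝ᵥ w) • b p = w := by
  have h1 : Matrix.of b * (Matrix.of b)ᵀ = 1 := by
    ext i j
    simpa [Matrix.mul_apply, dotProduct, Matrix.one_apply] using hb i j
  have h2 : (Matrix.of b)ᵀ * Matrix.of b = 1 := mul_eq_one_comm.1 h1
  have h3 : ((Matrix.of b)ᵀ * Matrix.of b) *ᵥ w = w := by rw [h2, one_mulVec]
  rw [← mulVec_mulVec] at h3
  refine Eq.trans ?_ h3
  funext a
  simp [mulVec, dotProduct, Finset.sum_apply, mul_comm]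

lemma ON.exchange {ι : Type*} [DecidableEq ι] {b : ι → M → F2} (hb : ON b) (p : ι) (u : M → F2)
    (hu : u ⬝ᵥ u = 1) (hup : u ⬝ᵥ b p = 0) :
    ∃ b' : ι → M → F2, ON b' ∧ b' p = u ∧ ∀ s, s ≠ p → u ⬝ᵥ b s = 0 → b' s = b s := by
  have hpp : b p ⬝ᵥ b p = 1 := by simpa using hb p p
  have htt : (u + b p) ⬝ᵥ (u + b p) = 0 := by
    rw [add_dotProduct, dotProduct_add, dotProduct_add, hu, hup, dotProduct_comm (b p) u, hup, hpp]
    simp [F2.one_add_one]
  refine ⟨fun s => b s + ((u + b p) ⬝ᵥ b s) • (u + b p), fun i j => ?_, ?_, fun s hs h => ?_⟩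
  · rw [← hb i j]
    simp only []
    rw [add_dotProduct (b i), dotProduct_add (b i), dotProduct_add _ (b j), dotProduct_smul,
      smul_dotProduct, smul_dotProduct, dotProduct_smul, htt, dotProduct_comm (b i) (u + b p)]
    simp only [smul_eq_mul, mul_zero, add_zero]
    linear_combination F2.add_self ((u + b p) ⬝ᵥ b j * (u + b p) ⬝ᵥ b i)
  · simp only []
    rw [add_dotProduct, hup, hpp, zero_add, one_smul]
    funext a
    simp only [Pi.add_apply]
    linear_combination F2.add_self (b p a)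
  · simp only []
    rw [add_dotProduct, h, hb p s, if_neg hs.symm]
    simp

end

lemma factor {N : Type*} [AddCommGroup N] [Module ℂ N] {sy : Sys V N} {R : Type*} [CommRing R]
    [Module R N] {M X : Type*} [Fintype M] [Fintype X] {κ : ℝ} (Z : M → R)
    (hZ : ∀ μ, sy.St κ (Z μ)) (g : X → M) (hg : Function.Injective g) :
    ∃ Rest : R, sy.St (((Fintype.card M : ℝ) - Fintype.card X) * κ) Rest ∧
      ∏ μ, Z μ = (∏ x, Z (g x)) * Rest := by
  classical
  refine ⟨∏ μ ∈ (univ.image g)ᶜ, Z μ, ?_, ?_⟩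
  · have := Sys.St.prod (univ.image g)ᶜ (fun μ _ => hZ μ)
    rwa [Finset.card_compl, Finset.card_image_of_injective _ hg, Finset.card_univ,
      Nat.cast_sub (Fintype.card_le_of_injective g hg)] at this
  · rw [← Finset.prod_mul_prod_compl (univ.image g), Finset.prod_image fun x _ y _ h => hg h]

section
variable {M J K : Type*} [Fintype M] [Fintype J] [Fintype K] [DecidableEq M] [DecidableEq J]
  [DecidableEq K] (e : M × J → K)

/-- The `j`-th column of `y`. -/
def col (y : K → F2) (j : J) : M → F2 := fun μ => y (e (μ, j))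

/-- The symbol of the tensor power along direction `u`. -/
noncomputable def Zw (u : M → F2) : (K → F2) → ℂ := fun y => ∏ j, om ((u ⬝ᵥ col e y j) • u)

/-- The matrix of the projection along `u`. -/
def Pm (u : M → F2) : Matrix J K F2 := Matrix.of fun j p => ∑ μ, if e (μ, j) = p then u μ else 0

lemma Pm_mulVec (u : M → F2) (y : K → F2) : Pm e u *ᵥ y = fun j => u ⬝ᵥ col e y j := by
  funext j
  simp only [Pm, mulVec, dotProduct, Matrix.of_apply, Finset.sum_mul, col]
  rw [Finset.sum_comm]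
  simp

lemma Pm_orth (he : Function.Injective e) {u : M → F2} (hu : u ⬝ᵥ u = 1) :
    Pm e u * (Pm e u)ᵀ = 1 := by
  ext j j'
  have : (Pm e u * (Pm e u)ᵀ) j j' = (Pm e u *ᵥ Pm e u j') j := rfl
  rw [this, Pm_mulVec, Matrix.one_apply]
  have h2 : col e (Pm e u j') j = if j = j' then u else 0 := by
    funext μ
    simp only [col, Pm, Matrix.of_apply, he.eq_iff, Prod.mk.injEq]
    split_ifs with h
    · simp [h]
    · simp [Ne.symm h]
  simp only [h2]
  split_ifs <;> simp [hu]

lemma Zw_sq {u : M → F2} (hu : u ⬝ᵥ u = 1) :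
    Zw e u ^ 2 = fun y => sg (((fun _ => 1) ᵥ* Pm e u) ⬝ᵥ y) := by
  funext y
  rw [← dotProduct_mulVec, Pm_mulVec]
  simp only [Zw, Pi.pow_apply, ← Finset.prod_pow, om_sq, smul_dotProduct, dotProduct_smul, hu,
    smul_eq_mul, mul_one, F2.mul_self]
  rw [← sg_sum]
  simp [dotProduct]

lemma Zw_pow4 {u : M → F2} (hu : u ⬝ᵥ u = 1) : Zw e u ^ 4 = 1 := by
  rw [show 4 = 2 * 2 from rfl, pow_mul, Zw_sq e hu]
  funext y
  simp [sg_sq]

lemma St_Zw_sq {u : M → F2} (hu : u ⬝ᵥ u = 1) : (walsh K V).St 0 (Zw e u ^ 2) := by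
  rw [Zw_sq e hu]
  exact St_sg _

lemma St_Zw (he : Function.Injective e) {c : ℝ} {W q : ℕ} (h : BC V c W (Cm J))
    (hq : Fintype.card (K → F2) ≤ q * W * Fintype.card (J → F2)) {u : M → F2} (hu : u ⬝ᵥ u = 1) :
    (walsh K V).St (q * c) (Zw e u) := by
  have h1 := St_om (Pm e u) (Pm_orth e he hu) h hq
  have h2 : om u = I ∨ om u = -I := by
    have := om_sq u
    rw [hu, sg_one, ← I_sq] at this
    exact sq_eq_sq_iff_eq_or_eq_neg.1 this
  rcases h2 with h2 | h2
  · convert h1 using 1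
    funext y
    rw [Pm_mulVec, Zw, om]
    refine Finset.prod_congr rfl fun j _ => ?_
    rcases F2.cases (u ⬝ᵥ col e y j) with h | h <;> simp [h, h2]
  · have := h1.mul (St_sg ((fun _ => 1) ᵥ* Pm e u))
    rw [add_zero] at this
    convert this using 1
    funext y
    rw [Pi.mul_apply, ← dotProduct_mulVec, Pm_mulVec, Zw, om]
    simp only [dotProduct, one_mul] 
    rw [sg_sum, ← Finset.prod_mul_distrib]
    refine Finset.prod_congr rfl fun j _ => ?_
    rcases F2.cases (∑ i, u i * col e y j i) with h | h <;> simp [h, h2]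

lemma prod_Zw {ι : Type*} [Fintype ι] [DecidableEq ι] {b : ι → M → F2} (hb : ON b) :
    ∏ i, Zw e (b i) = fun y => ∏ j, om (∑ i, (b i ⬝ᵥ col e y j) • b i) := by
  funext y
  simp only [Finset.prod_apply, Zw]
  rw [Finset.prod_comm]
  refine Finset.prod_congr rfl fun j _ => (om_sum _ _ fun i _ i' _ hi => ?_).symm
  rw [smul_dotProduct, dotProduct_smul, hb, if_neg hi]
  simp

/-- The symbol of the full tensor power. -/
noncomputable def Full : (K → F2) → ℂ := fun y => ∏ j, om (col e y j)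

lemma prod_Zw_full {b : M → M → F2} (hb : ON b) : ∏ i, Zw e (b i) = Full e := by
  rw [prod_Zw e hb]
  simp only [hb.complete]
  rfl

variable {H : Type*} [Fintype H] [DecidableEq H]

/-- The symbol attached to an isometric embedding. -/
noncomputable def Tl (L : (H → F2) →ₗ[F2] (M → F2)) : (K → F2) → ℂ :=
  fun y => ∏ j, om (L fun q => L (Pi.single q 1) ⬝ᵥ col e y j)

lemma prod_Zw_L (L : (H → F2) →ₗ[F2] (M → F2)) (hL : ∀ x x', L x ⬝ᵥ L x' = x ⬝ᵥ x')
    {b : H → H → F2} (hb : ON b) : ∏ p, Zw e (L (b p)) = Tl e L := by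
  have hb' : ON fun p => L (b p) := fun i j => by rw [hL, hb]
  rw [prod_Zw e hb']
  funext y
  refine Finset.prod_congr rfl fun j _ => ?_
  congr 1
  rw [← hb.complete fun q => L (Pi.single q 1) ⬝ᵥ col e y j, map_sum]
  refine Finset.sum_congr rfl fun p _ => ?_
  rw [map_smul]
  congr 1
  conv_lhs => rw [← ON.std.complete (b p), map_sum, sum_dotProduct]
  simp only [map_smul, smul_dotProduct, single_dotProduct, one_mul, smul_eq_mul]
  rfl

end

end Crest.Agent.Dft
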