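import Crest.Agent.Dft.Can

/-! Register-level calculus and the saving gadget. -/

set_option autoImplicit false

namespace Crest.Agent.Dft
open Finset

variable {V : Type} [AddCommGroup V] [Module ℂ V]

/-- A register system: each register `z : N` has a set of coordinates. -/
structure Sys (V : Type) [AddCommGroup V] [Module ℂ V] (N : Type*) [AddCommGroup N]
    [Module ℂ N] where
  co : N → Set V
  n : ℝ
  n_nonneg : 0 ≤ n
  hadd : ∀ z z', Can n (co z ∪ co z') (co (z + z'))
  hsmul : ∀ (a : ℂ) z, Can n (co z) (co (a • z))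
  hzero : co 0 ⊆ {0}

namespace Sys

variable {N : Type*} [AddCommGroup N] [Module ℂ N] (sy : Sys V N)

/-- Register-level computation. -/
def RCan (c : ℝ) (S T : Set N) : Prop := Can c (⋃ z ∈ S, sy.co z) (⋃ z ∈ T, sy.co z)

variable {sy}

lemma RCan.mono {c c' : ℝ} {S S' T T' : Set N} (h : sy.RCan c S T) (hc : c ≤ c') (hS : S ⊆ S')
    (hT : T' ⊆ T) : sy.RCan c' S' T' :=
  Can.mono' h hc (Set.biUnion_subset_biUnion_left hS) (Set.biUnion_subset_biUnion_left hT)

lemma RCan.le {c c' : ℝ} {S T : Set N} (h : sy.RCan c S T) (hc : c ≤ c') : sy.RCan c' S T :=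
  h.mono hc le_rfl le_rfl

lemma RCan.done {S T : Set N} (h : T ⊆ S) : sy.RCan 0 S T :=
  Can.done le_rfl ((Set.biUnion_subset_biUnion_left h).trans (Set.subset_insert _ _))

lemma RCan.mem {S : Set N} {z : N} (h : z ∈ S) : sy.RCan 0 S {z} :=
  RCan.done (by simpa using h)

lemma RCan.trans {a b : ℝ} {S T U : Set N} (h : sy.RCan a S T) (h' : sy.RCan b (S ∪ T) U) :
    sy.RCan (a + b) S U := by
  refine Can.trans h ?_
  rw [RCan, Set.biUnion_union] at h'
  exact h'

lemma RCan.trans' {a b : ℝ} {S T U : Set N} (h : sy.RCan a S T) (h' : sy.RCan b T U) :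
    sy.RCan (a + b) S U := Can.trans' h h'

lemma RCan.union {a b : ℝ} {S T U : Set N} (h : sy.RCan a S T) (h' : sy.RCan b S U) :
    sy.RCan (a + b) S (T ∪ U) := by
  rw [RCan, Set.biUnion_union]
  exact Can.union h h'

lemma RCan.iUnion {ι : Type*} [Fintype ι] {c : ℝ} {S : Set N} {T : ι → Set N}
    (h : ∀ i, sy.RCan c S (T i)) : sy.RCan (Fintype.card ι * c) S (⋃ i, T i) := by
  rw [RCan, Set.biUnion_iUnion]
  exact Can.iUnion h

lemma RCan.range {ι : Type*} [Fintype ι] {c : ℝ} {S : Set N} {f : ι → N}
    (h : ∀ i, sy.RCan c S {f i}) : sy.RCan (Fintype.card ι * c) S (Set.range f) := by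
  have := RCan.iUnion h
  rwa [Set.iUnion_singleton_eq_range] at this

lemma RCan.add {a b : ℝ} {S : Set N} {u v : N} (hu : sy.RCan a S {u}) (hv : sy.RCan b S {v}) :
    sy.RCan (a + b + sy.n) S {u + v} := by
  refine (hu.union hv).trans' ?_
  rw [RCan, Set.biUnion_union]
  simpa using sy.hadd u v

lemma RCan.smul {a : ℝ} {S : Set N} (t : ℂ) {u : N} (hu : sy.RCan a S {u}) :
    sy.RCan (a + sy.n) S {t • u} := by
  refine hu.trans' ?_
  simpa [RCan] using sy.hsmul t u

lemma RCan.zero {S : Set N} : sy.RCan 0 S {0} := by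
  refine Can.done le_rfl ?_
  simp only [Set.mem_singleton_iff, Set.iUnion_iUnion_eq_left]
  exact sy.hzero.trans (by simp)

lemma RCan.lincomb {ι : Type*} (s : Finset ι) {S : Set N} (a : ι → ℂ) (u : ι → N)
    (hu : ∀ i ∈ s, u i ∈ S) : sy.RCan (2 * s.card * sy.n) S {∑ i ∈ s, a i • u i} := by
  classical
  induction s using Finset.induction_on with
  | empty => simpa using RCan.zero
  | insert x s hx ih =>
    rw [Finset.sum_insert hx, Finset.card_insert_of_notMem hx]
    refine (((RCan.mem (hu x (by simp))).smul (a x)).add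
      (ih fun i hi => hu i (by simp [hi]))).le (le_of_eq ?_)
    push_cast; ring

variable {R : Type*} [CommRing R] [Module R N]

variable (sy) in
/-- Multiplying a register by `r` costs at most `c`. -/
def St (c : ℝ) (r : R) : Prop := ∀ z : N, Can c (sy.co z) (sy.co (r • z))

lemma RCan.step {a c : ℝ} {S : Set N} {r : R} (hr : sy.St c r) {u : N} (hu : sy.RCan a S {u}) :
    sy.RCan (a + c) S {r • u} := by
  refine hu.trans' ?_
  simpa [RCan] using hr u

lemma St.le {c c' : ℝ} {r : R} (h : sy.St c r) (hc : c ≤ c') : sy.St c' r :=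
  fun z => (h z).le hc

lemma St.one : sy.St 0 (1 : R) := fun z => by
  rw [one_smul]; exact Can.done le_rfl (Set.subset_insert _ _)

lemma St.mul {a b : ℝ} {r s : R} (hr : sy.St a r) (hs : sy.St b s) : sy.St (a + b) (r * s) :=
  fun z => by
    rw [mul_comm, mul_smul]
    exact (hr z).trans' (hs _)

lemma St.prod {ι : Type*} (s : Finset ι) {c : ℝ} {r : ι → R} (h : ∀ i ∈ s, sy.St c (r i)) :
    sy.St (s.card * c) (∏ i ∈ s, r i) := by
  classical
  induction s using Finset.induction_on with
  | empty => simpa using St.one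
  | insert x s hx ih =>
    rw [Finset.prod_insert hx, Finset.card_insert_of_notMem hx]
    refine ((h x (by simp)).mul (ih fun i hi => h i (by simp [hi]))).le (le_of_eq ?_)
    push_cast; ring

variable [Algebra ℂ R] [IsScalarTower ℂ R N]

/-- The number of vector additions and scalings used by the gadget. -/
def gadgetLin (a e h : ℝ) : ℝ := h * (2 * a) + e + a * (2 * h + 4 * e + 3) + 2 * e

theorem gadget {A E H : Type*} [Fintype A] [Fintype E] [Fintype H] [DecidableEq A]
    (P Q ν : A → R) (K : E → R) (T T' : R) (src tgt : E → A) (a : A → H → ℂ) (b : H → A → ℂ)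
    (μ : E → ℂ) {κ cQ cK cT : ℝ}
    (hM : ∀ α β, ∑ j, a α j * b j β =
      (if α = β then 1 else 0) + ∑ e, if tgt e = α ∧ src e = β then μ e else 0)
    (hP : ∀ α, sy.St κ (P α)) (hQ : ∀ α, sy.St cQ (Q α)) (hK : ∀ e, sy.St cK (K e))
    (hT' : sy.St cT T') (hPQ : ∀ α, P α * Q α = T) (hPK : ∀ e, P (src e) * K e = Q (tgt e))
    (hTT : T' * T = 1) (hν : ∀ α, ν α * P α = 1) (ε : ℂ) (X Y : A → N) (z : E → N) :
    sy.RCan (2 * Fintype.card A * cQ + Fintype.card H * cT + Fintype.card E * (2 * κ + cK)
        + gadgetLin (Fintype.card A) (Fintype.card E) (Fintype.card H) * sy.n)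
      (Set.range X ∪ Set.range Y ∪ Set.range z)
      (Set.range (fun α => Q α • X α) ∪ Set.range (fun α => Q α • (Y α + ε • ν α • X α))
        ∪ Set.range (fun e => T • z e)) := by
  set S0 := Set.range X ∪ Set.range Y ∪ Set.range z with hS0
  let X' : A → N := fun α => Q α • X α
  let c' : H → N := fun j => T' • ∑ β, b j β • X' β
  let a3 : E → N := fun e => K e • (P (src e) • z e + X (src e))
  have h1 : sy.RCan _ S0 (Set.range X') :=
    RCan.range fun α => (RCan.mem (by simp [hS0])).step (hQ α)
  have h2 : sy.RCan _ (S0 ∪ Set.range X') (Set.range c') :=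
    RCan.range fun j => (RCan.lincomb univ (b j) X' (fun β _ => by simp)).step hT'
  have h3 : sy.RCan _ (S0 ∪ Set.range X') (Set.range a3) :=
    RCan.range fun e => (((RCan.mem (by simp [hS0])).step (hP (src e))).add
      (RCan.mem (by simp [hS0]))).step (hK e)
  set S1 := S0 ∪ Set.range X' ∪ (Set.range c' ∪ Set.range a3) with hS1
  let y3 : A → N := fun α => Q α • (Y α + ∑ j, (ε * a α j) • c' j
      + ∑ e, (if tgt e = α then ε * μ e else 0) • z e)
      + ∑ e, (if tgt e = α then -(ε * μ e) else 0) • a3 e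
  let a5 : E → N := fun e => P (tgt e) • a3 e + (-1 : ℂ) • X' (src e)
  have h4 : sy.RCan _ S1 (Set.range y3) :=
    RCan.range fun α => ((((RCan.mem (by simp [hS1, hS0])).add
      (RCan.lincomb univ _ c' (fun β _ => by simp [hS1]))).add
      (RCan.lincomb univ _ z (fun β _ => by simp [hS1, hS0]))).step (hQ α)).add
      (RCan.lincomb univ _ a3 (fun β _ => by simp [hS1]))
  have h5 : sy.RCan _ S1 (Set.range a5) :=
    RCan.range fun e => ((RCan.mem (by simp [hS1])).step (hP (tgt e))).add
      ((RCan.mem (by simp [hS1])).smul (-1))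
  have h6 : sy.RCan 0 S1 (Set.range X') := RCan.done (by
    rw [hS1]; exact Set.subset_union_right.trans Set.subset_union_left)
  have hall := h1.trans ((h2.union h3).trans ((h6.union h4).union h5))
  have hTQ : ∀ β, T' * Q β = ν β := fun β => by
    calc T' * Q β = T' * Q β * (ν β * P β) := by rw [hν, mul_one]
      _ = T' * (P β * Q β) * ν β := by ring
      _ = ν β := by rw [hPQ, hTT, one_mul]
  have hX : ∀ β, X β = P β • ν β • X β := fun β => by
    rw [← mul_smul, mul_comm, hν, one_smul]
  have hc' : ∀ j, c' j = ∑ β, b j β • ν β • X β := fun j => by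
    simp only [c', X', Finset.smul_sum]
    refine Finset.sum_congr rfl fun β _ => ?_
    rw [smul_comm, ← mul_smul, hTQ]
  have ha3 : ∀ e, a3 e = Q (tgt e) • (z e + ν (src e) • X (src e)) := fun e => by
    simp only [a3]
    rw [← hPK, mul_comm, mul_smul, smul_add (P (src e)), ← hX]
  have hy3 : y3 = fun α => Q α • (Y α + ε • ν α • X α) := by
    funext α
    have e1 : ∑ j, (ε * a α j) • c' j = ε • ν α • X α +
        ∑ e, (if tgt e = α then ε * μ e else 0) • ν (src e) • X (src e) := by
      simp only [hc', Finset.smul_sum, ← mul_smul]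
      rw [Finset.sum_comm]
      simp only [← Finset.sum_smul, mul_assoc, ← Finset.mul_sum, hM, mul_add, add_smul,
        Finset.sum_add_distrib]
      congr 1
      · simp
      · simp only [Finset.mul_sum, Finset.sum_smul]
        rw [Finset.sum_comm]
        refine Finset.sum_congr rfl fun e _ => ?_
        by_cases he : tgt e = α
        · simp [he]
        · simp [he]
    have e2 : ∑ e, (if tgt e = α then -(ε * μ e) else 0) • a3 e =
        -(Q α • (∑ e, (if tgt e = α then ε * μ e else 0) • z e +
          ∑ e, (if tgt e = α then ε * μ e else 0) • ν (src e) • X (src e))) := by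
      rw [← Finset.sum_add_distrib, Finset.smul_sum, ← Finset.sum_neg_distrib]
      refine Finset.sum_congr rfl fun e _ => ?_
      by_cases he : tgt e = α
      · simp only [he, if_true, ha3]
        module
      · simp [he]
    simp only [y3]
    rw [e1, e2]
    module
  have ha5 : a5 = fun e => T • z e := by
    funext e
    simp only [a5, X', ha3]
    have hTν : T * ν (src e) = Q (src e) := by
      rw [← hPQ (src e)]; linear_combination Q (src e) * hν (src e)
    rw [← mul_smul, hPQ, smul_add, ← mul_smul T, hTν]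
    module
  rw [hy3, ha5] at hall
  refine hall.le (le_of_eq ?_)
  simp only [gadgetLin, Finset.card_univ]
  ring

end Sys

end Crest.Agent.Dft
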