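import Crest.Agent.Dft.Chirp

/-! In-place batched Fourier transforms of arbitrary length with logarithmically many layers. -/

set_option autoImplicit false

namespace Crest.Agent.Dft
open Finset Complex Matrix

section
variable {ι R : Type}

/-- A map on triples of vectors, as a map on vectors. -/
def op3 (f : (ι → ℂ) × (ι → ℂ) × (R → ℂ) → (ι → ℂ) × (ι → ℂ) × (R → ℂ))
    (x : ι ⊕ ι ⊕ R → ℂ) : ι ⊕ ι ⊕ R → ℂ :=
  Sum.elim (f (fun i => x (.inl i), fun i => x (.inr (.inl i)), fun r => x (.inr (.inr r)))).1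
    (Sum.elim (f (fun i => x (.inl i), fun i => x (.inr (.inl i)), fun r => x (.inr (.inr r)))).2.1
      (f (fun i => x (.inl i), fun i => x (.inr (.inl i)), fun r => x (.inr (.inr r)))).2.2)

lemma op3_comp {a b : ℕ} {f g : (ι → ℂ) × (ι → ℂ) × (R → ℂ) → (ι → ℂ) × (ι → ℂ) × (R → ℂ)}
    (hf : SL a (op3 f)) (hg : SL b (op3 g)) : SL (a + b) (op3 fun p => f (g p)) :=
  (hf.comp hg).congr fun _ _ => rfl

lemma op3_W {a : ℕ} {u : (R → ℂ) → (R → ℂ)} (h : SL a u) :
    SL a (op3 (ι := ι) fun p => (p.1, p.2.1, u p.2.2)) := by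
  have he : Function.Injective (fun r : R => (Sum.inr (Sum.inr r) : ι ⊕ ι ⊕ R)) :=
    fun _ _ h => by simpa using h
  refine (h.embed _ he).congr fun x k => ?_
  rcases k with i | i | r
  · rw [Function.extend_apply' _ _ _ (by simp)]; rfl
  · rw [Function.extend_apply' _ _ _ (by simp)]; rfl
  · rw [he.extend_apply]; rfl

variable [Fintype ι] [DecidableEq ι] [DecidableEq R]

lemma op3_addW (E : ι → R) (hE : Function.Injective E) (lam : ι → ℂ) :
    SL 1 (op3 fun p => (p.1, p.2.1,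
      fun r => p.2.2 r + ∑ i, if E i = r then lam i * p.1 i else 0)) := by
  refine (SL.addTo (κ := ι ⊕ ι ⊕ R) (fun i => .inl i) (fun i => .inr (.inr (E i)))
    (fun _ _ h => by simpa using h) (fun _ _ h => hE (by simpa using h)) (by simp) lam).congr ?_
  rintro x (i | i | r) <;> simp [op3]

lemma op3_addY (E : ι → R) (hE : Function.Injective E) (lam : ι → ℂ) :
    SL 1 (op3 fun p => (p.1, fun i => p.2.1 i + lam i * p.2.2 (E i), p.2.2)) := by
  refine (SL.addTo (κ := ι ⊕ ι ⊕ R) (fun i => .inr (.inr (E i))) (fun i => .inr (.inl i))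
    (fun _ _ h => hE (by simpa using h)) (fun _ _ h => by simpa using h) (by simp) lam).congr ?_
  rintro x (i | i | r) <;> simp [op3]

lemma op3_cat {a : ℕ} {u u' : (R → ℂ) → (R → ℂ)} (hu : SL a u) (hu' : SL a u')
    (hadd : ∀ w v : R → ℂ, u (fun r => w r + v r) = fun r => u w r + u v r)
    (hinv : ∀ w, u' (u w) = w) (E E' : ι → R) (hE : Function.Injective E)
    (hE' : Function.Injective E') (lam lam' : ι → ℂ) :
    SL (4 * a + 4) (op3 (R := R) fun p => (p.1, fun i => p.2.1 i +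
      lam' i * u (fun r => ∑ j, if E j = r then lam j * p.1 j else 0) (E' i), p.2.2)) := by
  have := op3_comp (op3_W hu') (op3_comp (op3_addY E' hE' fun i => - lam' i) (op3_comp (op3_W hu)
    (op3_comp (op3_addW E hE fun i => - lam i) (op3_comp (op3_W hu') (op3_comp (op3_addY E' hE' lam')
    (op3_comp (op3_W hu) (op3_addW E hE lam)))))))
  refine (this.le (by omega)).congr fun x k => ?_
  congr 1
  funext p
  have h1 : (fun r => (p.2.2 r + ∑ i, if E i = r then lam i * p.1 i else 0) +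
      ∑ i, if E i = r then - lam i * p.1 i else 0) = p.2.2 := by
    funext r
    rw [add_assoc, ← Finset.sum_add_distrib, Finset.sum_eq_zero, add_zero]
    intro i _
    split_ifs <;> simp
  simp only [hinv, h1]
  simp only [hadd]
  congr 2
  funext i
  ring

end

/-- The Fourier transform on `ZMod s`. -/
noncomputable def Fz (s : ℕ) [NeZero s] (x : ZMod s → ℂ) : ZMod s → ℂ :=
  fun i => ∑ j, psi s (i * j) * x j

lemma Fz_inv (s : ℕ) [NeZero s] (x : ZMod s → ℂ) (i : ZMod s) : Fz s (Fz s x) (-i) = s * x i := by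
  have := (goodChar_psi s).inv x i
  rwa [ZMod.card] at this

lemma Fz_add (s : ℕ) [NeZero s] (x y : ZMod s → ℂ) :
    Fz s (fun i => x i + y i) = fun i => Fz s x i + Fz s y i := by
  funext i; simp [Fz, mul_add, Finset.sum_add_distrib]

lemma Fz_smul (s : ℕ) [NeZero s] (c : ℂ) (x : ZMod s → ℂ) :
    Fz s (fun i => c * x i) = fun i => c * Fz s x i := by
  funext i; simp only [Fz, Finset.mul_sum]; exact Finset.sum_congr rfl fun _ _ => by ring

lemma Fz_neg (s : ℕ) [NeZero s] (x : ZMod s → ℂ) (i : ZMod s) :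
    Fz s (fun j => x (-j)) i = Fz s x (-i) := by
  simp only [Fz]
  exact Fintype.sum_equiv (Equiv.neg (ZMod s)) _ _ fun j => by simp

lemma shear3 (s : ℕ) [NeZero s] (l : ℕ) (hl : 2 * s ≤ 2 ^ l) (c : ℂ) (ρ : ZMod s → ZMod s)
    (hρ : Function.Injective ρ) :
    SL (16 * l + 4) (op3 (R := ZMod (2 ^ l)) fun p =>
      (p.1, fun i => p.2.1 i + c * Fz s p.1 (ρ i), p.2.2)) := by
  have hs : (s : ℂ) ≠ 0 := Nat.cast_ne_zero.2 (NeZero.ne s)
  obtain ⟨d, Λ, hΛ, h⟩ := (goodChar_psi (2 ^ l)).chirp s (fun d hd h => by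
    rw [ZMod.intCast_zmod_eq_zero_iff_dvd] at h
    refine Int.eq_zero_of_abs_lt_dvd h (hd.trans_le ?_)
    exact_mod_cast hl) (Complex.exp_ne_zero (2 * Real.pi * I / s))
  have ht : ((2 ^ l : ℕ) : ℂ) ≠ 0 := Nat.cast_ne_zero.2 (by positivity)
  have hF : SL (2 * l) (Fz (2 ^ l)) := fft_zmod l
  have hu := hF.comp ((SL.mon Λ id).comp hF)
  have hu' := (SL.mon (fun _ => ((2 ^ l : ℕ) : ℂ)⁻¹) Neg.neg).comp (hF.comp
    ((SL.mon (fun a => (Λ a)⁻¹ * ((2 ^ l : ℕ) : ℂ)⁻¹) Neg.neg).comp hF))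
  have hE : Function.Injective fun i : ZMod s => ((i.val : ℕ) : ZMod (2 ^ l)) := fun i j hij => by
    have hi := ZMod.val_lt i
    have hj := ZMod.val_lt j
    have := congrArg ZMod.val hij
    simp only [] at this
    rw [ZMod.val_cast_of_lt (by omega), ZMod.val_cast_of_lt (by omega)] at this
    exact ZMod.val_injective s this
  have := op3_cat (hu.le (b := 4 * l) (by omega)) (hu'.le (b := 4 * l) (by omega))
    (fun w v => by simp only [Fz_add, mul_add, id]) (fun w => by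
      funext r
      simp only [Fz_inv, id]
      have : ∀ a, (Λ a)⁻¹ * ((2 ^ l : ℕ) : ℂ)⁻¹ * (((2 ^ l : ℕ) : ℂ) * (Λ a * Fz (2 ^ l) w a)) =
          Fz (2 ^ l) w a := fun a => by
        have := hΛ a
        field_simp
      simp only [this]
      rw [Fz_inv]
      field_simp) _ (fun i => -(((ρ i).val : ℕ) : ZMod (2 ^ l))) hE
      (fun i j hij => hρ (hE (neg_injective hij))) (fun i => d i.val) (fun i => c * d (ρ i).val)
  refine (this.le (by omega)).congr fun x k => ?_
  congr 1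
  funext p
  congr 2
  funext i
  congr 1
  rw [mul_assoc]
  congr 1
  have h1 : ∀ a, Fz (2 ^ l) (fun r => ∑ j : ZMod s,
      if ((j.val : ℕ) : ZMod (2 ^ l)) = r then d j.val * p.1 j else 0) a =
      ∑ j : ZMod s, psi (2 ^ l) (a * (j.val : ℕ)) * (d j.val * p.1 j) := fun a => by
    simp only [Fz, Finset.mul_sum, mul_ite, mul_zero]
    rw [Finset.sum_comm]
    simp
  simp only [id, h1]
  simp only [Fz, psi_mul s, h _ (ZMod.val_lt _) _ (ZMod.val_lt _), Finset.mul_sum, Finset.sum_mul]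
  rw [Finset.sum_comm]
  exact Finset.sum_congr rfl fun _ _ => Finset.sum_congr rfl fun _ _ => by ring

/-- Maps on six registers. -/
def SLc {ι : Type} (D : ℕ) (φ : (Fin 6 → ι → ℂ) → (Fin 6 → ι → ℂ)) : Prop :=
  SL D (fun (x : Fin 6 × ι → ℂ) p => φ (fun b i => x (b, i)) p.1 p.2)

lemma SLc.comp {ι : Type} {a b : ℕ} {φ ψ : (Fin 6 → ι → ℂ) → (Fin 6 → ι → ℂ)} (h : SLc a φ)
    (h' : SLc b ψ) : SLc (a + b) (fun z => φ (ψ z)) := SL.comp h h'

lemma SLc.congr {ι : Type} {a : ℕ} {φ ψ : (Fin 6 → ι → ℂ) → (Fin 6 → ι → ℂ)} (h : SLc a φ)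
    (h' : ∀ z, ψ z = φ z) : SLc a ψ := by
  obtain rfl : ψ = φ := funext h'
  exact h

lemma SLc.le {ι : Type} {a b : ℕ} {φ : (Fin 6 → ι → ℂ) → (Fin 6 → ι → ℂ)} (h : SLc a φ)
    (h' : a ≤ b) : SLc b φ := SL.le h h'

lemma shear6 (s : ℕ) [NeZero s] (l : ℕ) (hl : 2 * s ≤ 2 ^ l) (hl' : 2 ^ l ≤ 4 * s) (c : ℂ)
    (ρ : ZMod s → ZMod s) (hρ : Function.Injective ρ) (b0 b1 : Fin 6) (hb : b0 ≠ b1) :
    SLc (16 * l + 4) (fun z => Function.update z b1 fun i => z b1 i + c * Fz s (z b0) (ρ i)) := by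
  have hcard : Fintype.card {b : Fin 6 // b ≠ b0 ∧ b ≠ b1} = 4 := by
    revert b0 b1; decide
  obtain ⟨ew⟩ : Nonempty (ZMod (2 ^ l) ↪ {b : Fin 6 // b ≠ b0 ∧ b ≠ b1} × ZMod s) :=
    Function.Embedding.nonempty_of_card_le (by
      rw [Fintype.card_prod, hcard, ZMod.card, ZMod.card]; exact hl')
  let e : ZMod s ⊕ ZMod s ⊕ ZMod (2 ^ l) → Fin 6 × ZMod s :=
    Sum.elim (fun i => (b0, i)) (Sum.elim (fun i => (b1, i)) fun r => ((ew r).1.1, (ew r).2))
  have he : Function.Injective e := by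
    rintro (i | i | r) (j | j | r') h <;>
      simp only [e, Sum.elim_inl, Sum.elim_inr, Prod.mk.injEq] at h
    · rw [h.2]
    · exact absurd h.1 hb
    · exact absurd h.1.symm (ew r').1.2.1
    · exact absurd h.1.symm hb
    · rw [h.2]
    · exact absurd h.1.symm (ew r').1.2.2
    · exact absurd h.1 (ew r).1.2.1
    · exact absurd h.1 (ew r).1.2.2
    · rw [ew.injective (Prod.ext (Subtype.ext h.1) h.2)]
  refine ((shear3 s l hl c ρ hρ).embed e he).congr fun x k => ?_
  by_cases hk : ∃ a, e a = k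
  · obtain ⟨a, rfl⟩ := hk
    rw [he.extend_apply]
    rcases a with i | i | r
    · simp [e, op3, hb]
    · simp [e, op3]
    · simp [e, op3, (ew r).1.2.2]
  · simp only []
    rw [Function.extend_apply' _ _ _ hk, Function.update_of_ne]
    rintro h
    exact hk ⟨.inr (.inl k.2), Prod.ext h.symm rfl⟩

lemma pair6 (s : ℕ) [NeZero s] (l : ℕ) (hl : 2 * s ≤ 2 ^ l) (hl' : 2 ^ l ≤ 4 * s)
    (b0 b1 : Fin 6) (hb : b0 ≠ b1) :
    SLc (3 * (16 * l + 4))
      (fun z => Function.update (Function.update z b0 (Fz s (z b0))) b1 (Fz s (z b1))) := by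
  have hs : (s : ℂ) ≠ 0 := Nat.cast_ne_zero.2 (NeZero.ne s)
  have h1 := shear6 s l hl hl' 1 id Function.injective_id b0 b1 hb
  have h2 := shear6 s l hl hl' (-(s : ℂ)⁻¹) Neg.neg neg_injective b1 b0 hb.symm
  have h3 : SLc 0 (fun (z : Fin 6 → ZMod s → ℂ) => Function.update (Function.update z b0 (z b1)) b1
      (fun i => -s * z b0 (-i))) := by
    refine (SL.mon (fun p : Fin 6 × ZMod s => if p.1 = b1 then -s else 1)
      (fun p => if p.1 = b1 then (b0, -p.2) else if p.1 = b0 then (b1, p.2) else p)).congr ?_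
    rintro x ⟨b, i⟩
    by_cases h : b = b1
    · simp [h]
    · by_cases h' : b = b0
      · subst h'; simp [h]
      · simp [h, h']
  have := h3.comp (h1.comp (h2.comp h1))
  refine (SLc.congr (SLc.le this (by omega)) fun z => ?_)
  have e1 : (fun i => z b0 i + -(s : ℂ)⁻¹ * Fz s (fun i => z b1 i + Fz s (z b0) i) (-i)) =
      fun i => -(s : ℂ)⁻¹ * Fz s (z b1) (-i) := by
    funext i
    rw [Fz_add]
    simp only [Fz_inv]
    field_simp
    ring
  funext b
  by_cases h : b = b1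
  · subst h
    simp only [Function.update_self, Function.update_of_ne hb, Function.update_of_ne hb.symm, id,
      one_mul, e1, neg_neg]
    funext i
    field_simp
  · by_cases h' : b = b0
    · subst h'
      simp only [Function.update_self, Function.update_of_ne hb, Function.update_of_ne hb.symm, id,
        one_mul, e1, neg_neg]
      funext i
      rw [Fz_smul]
      simp only []
      rw [Fz_neg, Fz_inv]
      field_simp
      ring
    · simp only [Function.update_of_ne h, Function.update_of_ne h']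

theorem lay_dft (s : ℕ) [NeZero s] (D : ℕ) (hD : 144 * Nat.log 2 s + 324 ≤ D) :
    Lay (4 * D) (Matrix.of fun p q : Bool × (Fin 6 × ZMod s) =>
      if (p.1, p.2.1) = (q.1, q.2.1) then psi s (p.2.2 * q.2.2) else 0) := by
  have hs : 0 < s := Nat.pos_of_ne_zero (NeZero.ne s)
  have hl : 2 * s ≤ 2 ^ (Nat.log 2 s + 2) := by
    have := Nat.lt_pow_succ_log_self (b := 2) (by norm_num) s
    rw [pow_succ]; omega
  have hl' : 2 ^ (Nat.log 2 s + 2) ≤ 4 * s := by
    have := Nat.pow_log_le_self 2 hs.ne'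
    rw [pow_add]; omega
  have h1 := (pair6 s _ hl hl' 0 1 (by decide)).comp ((pair6 s _ hl hl' 2 3 (by decide)).comp
    (pair6 s _ hl hl' 4 5 (by decide)))
  have h2 : SLc D (fun z b => Fz s (z b)) := by
    refine SLc.congr (SLc.le h1 (by omega)) fun z => ?_
    funext b
    fin_cases b <;> simp
  obtain ⟨A, hA, h3⟩ := SL.layF h2
  convert hA using 1
  ext p q
  have := congrFun (h3 (Pi.single q 1)) p
  rw [mulVec_single_one] at this
  rw [show A p q = A.col q p from rfl, this]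
  obtain ⟨a, b, i⟩ := p
  obtain ⟨a', b', i'⟩ := q
  simp only [Matrix.of_apply, Fz, Pi.single_apply, Prod.mk.injEq]
  by_cases h : a = a' ∧ b = b'
  · simp [h]
  · rw [if_neg h, Finset.sum_eq_zero]
    intro j _
    rw [if_neg (fun h' => h ⟨h'.1, h'.2.1⟩), mul_zero]

end Crest.Agent.Dft
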