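import Crest.Agent.Dft.Walsh

/-! Layered in-place circuits and their tensor products. -/

set_option autoImplicit false

namespace Crest.Agent.Dft
open Finset Complex Matrix

variable {V : Type} [AddCommGroup V] [Module ℂ V]

section
variable {ι : Type*} [Fintype ι] [DecidableEq ι]

/-- Matrices with one entry in each row. -/
def Mon (A : Matrix ι ι ℂ) : Prop :=
  ∃ (d : ι → ℂ) (σ : ι → ι), ∀ i j, A i j = if j = σ i then d i else 0

/-- The action of the two-element group generated by `τ`. -/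
def sw (τ : ι → ι) (a : F2) (i : ι) : ι := if a = 0 then i else τ i

/-- One layer along the matching `τ`. -/
noncomputable def Cl (τ : ι → ι) : Matrix ι ι ℂ :=
  Matrix.of fun i j => ∑ a : F2, if j = sw τ a i then ck a else 0

/-- Fixed-point free involutions. -/
def FPF (τ : ι → ι) : Prop := (∀ i, τ (τ i) = i) ∧ ∀ i, τ i ≠ i

/-- Products of `D` layers and monomial matrices. -/
def Lay : ℕ → Matrix ι ι ℂ → Prop
  | 0, A => Mon A
  | D + 1, A => ∃ M τ A', Mon M ∧ FPF τ ∧ Lay D A' ∧ A = M * Cl τ * A'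

lemma Mon.one : Mon (1 : Matrix ι ι ℂ) := ⟨fun _ => 1, id, fun i j => by
  simp [Matrix.one_apply, eq_comm]⟩

lemma Mon.mul {A B : Matrix ι ι ℂ} (hA : Mon A) (hB : Mon B) : Mon (A * B) := by
  obtain ⟨d, σ, hA⟩ := hA
  obtain ⟨d', σ', hB⟩ := hB
  refine ⟨fun i => d i * d' (σ i), fun i => σ' (σ i), fun i j => ?_⟩
  simp only [Matrix.mul_apply, hA, ite_mul, zero_mul, Finset.sum_ite_eq', Finset.mem_univ, if_true]
  simp only [hB, mul_ite, mul_zero]

lemma Lay.mon_mul {D : ℕ} {M A : Matrix ι ι ℂ} (hM : Mon M) (hA : Lay D A) : Lay D (M * A) := by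
  cases D with
  | zero => exact Mon.mul hM hA
  | succ D =>
    obtain ⟨M', τ, A', h1, h2, h3, rfl⟩ := hA
    exact ⟨M * M', τ, A', hM.mul h1, h2, h3, by simp only [Matrix.mul_assoc]⟩

lemma Lay.mul {a b : ℕ} {A B : Matrix ι ι ℂ} (hA : Lay a A) (hB : Lay b B) :
    Lay (a + b) (A * B) := by
  induction a generalizing A with
  | zero => rw [zero_add]; exact Lay.mon_mul hA hB
  | succ a ih =>
    obtain ⟨M', τ, A', h1, h2, h3, rfl⟩ := hA
    rw [Nat.add_right_comm]
    exact ⟨M', τ, A' * B, h1, h2, ih h3, by simp only [Matrix.mul_assoc]⟩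

lemma Mon.can {A : Matrix ι ι ℂ} (hA : Mon A) (f : ι → V) :
    Can (Fintype.card ι) (Set.range f) (Set.range (app A f)) := by
  obtain ⟨d, σ, hA⟩ := hA
  have : ∀ i, Can 1 (Set.range f) {app A f i} := fun i => by
    have : app A f i = d i • f (σ i) := by simp [app, hA]
    rw [this]
    exact Can.smul1 _ (by simp)
  simpa using Can.range this

lemma app_Cl (τ : ι → ι) (f : ι → V) (i : ι) : app (Cl τ) f i = ∑ a : F2, ck a • f (sw τ a i) := by
  simp only [app, Cl, Matrix.of_apply, Finset.sum_smul]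
  rw [Finset.sum_comm]
  simp

lemma Lay.can {D : ℕ} {A : Matrix ι ι ℂ} (hA : Lay D A) (f : ι → V) :
    Can ((5 * D + 1) * Fintype.card ι) (Set.range f) (Set.range (app A f)) := by
  induction D generalizing A with
  | zero => simpa using Mon.can hA f
  | succ D ih =>
    obtain ⟨M, τ, A', h1, h2, h3, rfl⟩ := hA
    rw [app_mul, app_mul]
    have h4 : ∀ i, Can _ (Set.range (app A' f)) {app (Cl τ) (app A' f) i} := fun i => by
      rw [app_Cl]
      exact Can.lincomb univ _ _ fun a _ => Or.inr (Set.mem_range_self _)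
    refine (((ih h3).trans' (Can.range h4)).trans' (h1.can _)).le (le_of_eq ?_)
    simp; ring

end

section
variable {J : Type*} [Fintype J] [DecidableEq J] {κ : J → Type*} [∀ j, Fintype (κ j)]
  [∀ j, DecidableEq (κ j)]

/-- Tensor product of a family of matrices. -/
noncomputable def tens (A : ∀ j, Matrix (κ j) (κ j) ℂ) : Matrix (∀ j, κ j) (∀ j, κ j) ℂ :=
  Matrix.of fun x y => ∏ j, A j (x j) (y j)

lemma tens_mul (A B : ∀ j, Matrix (κ j) (κ j) ℂ) : tens (fun j => A j * B j) = tens A * tens B := by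
  ext x y
  simp only [tens, Matrix.of_apply, Matrix.mul_apply, ← Finset.prod_mul_distrib]
  rw [Finset.prod_univ_sum, Fintype.piFinset_univ]

lemma prod_ite_pi (x y : ∀ j, κ j) (d : J → ℂ) :
    ∏ j, (if x j = y j then d j else 0) = if x = y then ∏ j, d j else 0 := by
  split_ifs with h
  · simp [h]
  · obtain ⟨j, hj⟩ := Function.ne_iff.1 h
    exact Finset.prod_eq_zero (Finset.mem_univ j) (if_neg hj)

lemma Mon.tens {A : ∀ j, Matrix (κ j) (κ j) ℂ} (h : ∀ j, Mon (A j)) : Mon (tens A) := by
  choose d σ h using h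
  refine ⟨fun x => ∏ j, d j (x j), fun x j => σ j (x j), fun x y => ?_⟩
  simp only [Dft.tens, Matrix.of_apply, h]
  exact prod_ite_pi y (fun j => σ j (x j)) fun j => d j (x j)

lemma app_tens_Cl (τ : ∀ j, κ j → κ j) (f : (∀ j, κ j) → V) (x : ∀ j, κ j) :
    app (tens fun j => Cl (τ j)) f x =
      ∑ g : J → F2, kk g • f (fun j => sw (τ j) (g j) (x j)) := by
  simp only [app, tens, Cl, Matrix.of_apply]
  simp only [Finset.prod_univ_sum, Fintype.piFinset_univ, Finset.sum_smul]
  rw [Finset.sum_comm]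
  refine Finset.sum_congr rfl fun g _ => ?_
  simp only [prod_ite_pi _ (fun j => sw (τ j) (g j) (x j))]
  simp [kk]

lemma can_tens {c : ℝ} {W q : ℕ} (h : BC V c W (Cm J))
    (hq : Fintype.card (∀ j, κ j) ≤ q * W * Fintype.card (J → F2)) {D : ℕ}
    {A : ∀ j, Matrix (κ j) (κ j) ℂ} (hA : ∀ j, Lay D (A j)) (f : (∀ j, κ j) → V) :
    Can ((D + 1) * Fintype.card (∀ j, κ j) + D * (q * c)) (Set.range f)
      (Set.range (app (tens A) f)) := by
  induction D generalizing A with
  | zero => simpa using Mon.can (Mon.tens hA) f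
  | succ D ih =>
    choose M τ A' h1 h2 h3 h4 using hA
    obtain rfl : A = fun j => M j * Cl (τ j) * A' j := funext h4
    rw [tens_mul, tens_mul, app_mul, app_mul]
    have h5 := BC.act kk h (fun (g : J → F2) (x : ∀ j, κ j) j => sw (τ j) (g j) (x j))
      (fun x => by simp [sw]) (fun g g' x => by
        funext j
        rcases F2.cases (g j) with h | h <;> rcases F2.cases (g' j) with h' | h' <;>
          simp [sw, h, h', F2.one_add_one, (h2 j).1])
      (fun g x hx => by
        funext j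
        have := congrFun hx j
        by_contra hg
        simp only [sw] at this
        rw [if_neg (show ¬ g j = 0 from hg)] at this
        exact (h2 j).2 _ this) hq (app (tens A') f)
    simp only [← app_tens_Cl] at h5
    refine (((ih h3).trans' h5).trans' ((Mon.tens h1).can _)).le (le_of_eq ?_)
    push_cast; ring

end

section
variable {ι : Type*} [Fintype ι] [DecidableEq ι]

/-- Layered circuits, as maps. -/
def LayF (D : ℕ) (φ : (ι → ℂ) → (ι → ℂ)) : Prop := ∃ A, Lay D A ∧ ∀ x, A *ᵥ x = φ x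

lemma LayF.comp {a b : ℕ} {φ ψ : (ι → ℂ) → (ι → ℂ)} (h : LayF a φ) (h' : LayF b ψ) :
    LayF (a + b) (fun x => φ (ψ x)) := by
  obtain ⟨A, hA, h⟩ := h
  obtain ⟨B, hB, h'⟩ := h'
  exact ⟨A * B, hA.mul hB, fun x => by rw [← mulVec_mulVec, h', h]⟩

lemma LayF.mon (d : ι → ℂ) (σ : ι → ι) : LayF 0 (fun x i => d i * x (σ i)) :=
  ⟨Matrix.of fun i j => if j = σ i then d i else 0, ⟨d, σ, fun _ _ => rfl⟩, fun x => by
    funext i; simp [mulVec, dotProduct]⟩

lemma LayF.cl {τ : ι → ι} (h : FPF τ) :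
    LayF 1 (fun x i => (1 + I) / 2 * x i + (1 - I) / 2 * x (τ i)) :=
  ⟨Cl τ, ⟨1, τ, 1, Mon.one, h, Mon.one, by simp⟩, fun x => by
    funext i
    have := app_Cl τ x i
    rw [sum_F2] at this
    simpa [app, sw, mulVec, dotProduct] using this⟩

lemma LayF.two {τ : ι → ι} (h : FPF τ) (u w : ι → ℂ) (hu : ∀ i, u (τ i) = - u i)
    (hw : ∀ i, w (τ i) = w i) : LayF 2 (fun x i => u i * x i + w i * x (τ i)) := by
  have := (LayF.cl h).comp ((LayF.mon (fun i => w i - I * u i) id).comp (LayF.cl h))
  convert this using 3 with x i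
  simp only [id, hu, hw, h.1]
  linear_combination (u i * x i * (1 - I + I) + w i * x (τ i) / 2 - w i * x i / 2) * I_sq

lemma LayF.shear {τ : ι → ι} (h : FPF τ) (lam : ι → ℂ) (hl : ∀ i, lam i ≠ 0 → lam (τ i) = 0) :
    LayF 4 (fun x i => x i + lam i * x (τ i)) := by
  let s : ι → ℂ := fun i => if lam i ≠ 0 then -1 else if lam (τ i) ≠ 0 then 1 else 0
  let w : ι → ℂ := fun i => if lam i ≠ 0 then 2 else if lam (τ i) ≠ 0 then 2 else 1
  have hs : ∀ i, s (τ i) = - s i := fun i => by
    by_cases h1 : lam i = 0 <;> by_cases h2 : lam (τ i) = 0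
    · simp [s, h1, h2, h.1]
    · simp [s, h1, h2, h.1]
    · simp [s, h1, h2, h.1]
    · exact absurd (hl i h1) h2
  have hw : ∀ i, w (τ i) = w i := fun i => by
    by_cases h1 : lam i = 0 <;> by_cases h2 : lam (τ i) = 0 <;> simp [w, h1, h2, h.1]
  have := (LayF.mon (fun i => if lam i ≠ 0 then - lam i / 3 else if lam (τ i) ≠ 0 then 1 / 5 else 1)
    id).comp ((LayF.two h s (fun _ => 1) hs fun _ => rfl).comp
    ((LayF.mon (fun i => if lam i ≠ 0 then 2 else 1) id).comp ((LayF.two h s w hs hw).comp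
    (LayF.mon (fun i => if lam i ≠ 0 then -3 / (4 * lam i) else 1) id))))
  convert this using 3 with x i
  by_cases h1 : lam i = 0 <;> by_cases h2 : lam (τ i) = 0
  · simp [s, w, h1, h2, h.1]
  · simp [s, w, h1, h2, h.1]
    field_simp
    ring
  · simp [s, w, h1, h2, h.1]
    field_simp
    ring
  · exact absurd (hl i h1) h2

end

/-- In-place circuits made of monomial maps and layers of disjoint shears. -/
inductive SL {ι : Type*} : ℕ → ((ι → ℂ) → (ι → ℂ)) → Prop
  | mon (d : ι → ℂ) (σ : ι → ι) : SL 0 (fun x i => d i * x (σ i))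
  | shear (τ : ι → ι) (lam : ι → ℂ) : (∀ i, τ (τ i) = i) →
      (∀ i, lam i ≠ 0 → τ i ≠ i ∧ lam (τ i) = 0) → SL 1 (fun x i => x i + lam i * x (τ i))
  | comp {a b : ℕ} {φ ψ : (ι → ℂ) → (ι → ℂ)} : SL a φ → SL b ψ → SL (a + b) (fun x => φ (ψ x))

namespace SL
variable {ι κ : Type*}

lemma congr {a : ℕ} {φ ψ : (ι → ℂ) → (ι → ℂ)} (h : SL a φ) (h' : ∀ x i, ψ x i = φ x i) :
    SL a ψ := by
  obtain rfl : ψ = φ := funext fun x => funext (h' x)
  exact h

lemma le {a b : ℕ} {φ : (ι → ℂ) → (ι → ℂ)} (h : SL a φ) (hab : a ≤ b) : SL b φ := by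
  induction hab with
  | refl => exact h
  | step _ ih =>
    exact (ih.comp (shear id 0 (fun _ => rfl) (by simp))).congr (by simp)

lemma layF [Fintype ι] [DecidableEq ι] {a : ℕ} {φ : (ι → ℂ) → (ι → ℂ)} (h : SL a φ) :
    LayF (4 * a) (fun (x : Bool × ι → ℂ) p => φ (fun i => x (p.1, i)) p.2) := by
  induction h with
  | mon d σ => exact LayF.mon (fun p : Bool × ι => d p.2) (fun p => (p.1, σ p.2))
  | shear τ lam h1 h2 =>
    have := LayF.shear (τ := fun p : Bool × ι => if τ p.2 = p.2 then (!p.1, p.2) else (p.1, τ p.2))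
      ⟨fun p => by
        by_cases hp : τ p.2 = p.2
        · simp [hp]
        · have : ¬ p.2 = τ p.2 := fun h => hp h.symm
          simp [hp, h1, this],
      fun p => by
        by_cases hp : τ p.2 = p.2
        · simp [hp, Prod.ext_iff]
        · simp [hp, Prod.ext_iff]⟩ (fun p => lam p.2) (fun p hp => by
          simp [(h2 _ hp).1, (h2 _ hp).2])
    convert this using 3 with x p
    by_cases hp : lam p.2 = 0
    · simp [hp]
    · simp [(h2 _ hp).1]
  | comp _ _ ih ih' =>
    rw [mul_add]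
    exact ih.comp ih'

lemma prod {P : Type*} {a : ℕ} {φ : (ι → ℂ) → (ι → ℂ)} (h : SL a φ) :
    SL a (fun (x : P × ι → ℂ) p => φ (fun i => x (p.1, i)) p.2) := by
  induction h with
  | mon d σ => exact mon (fun p : P × ι => d p.2) (fun p => (p.1, σ p.2))
  | shear τ lam h1 h2 =>
    exact shear (fun p : P × ι => (p.1, τ p.2)) (fun p => lam p.2) (fun p => by simp [h1])
      (fun p hp => ⟨fun h => (h2 _ hp).1 (Prod.ext_iff.1 h).2, (h2 _ hp).2⟩)
  | comp _ _ ih ih' => exact ih.comp ih'

lemma embed {a : ℕ} {φ : (ι → ℂ) → (ι → ℂ)} (h : SL a φ) (e : ι → κ) (he : Function.Injective e) :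
    SL a (fun (x : κ → ℂ) => Function.extend e (φ (fun i => x (e i))) x) := by
  induction h with
  | mon d σ =>
    refine (mon (Function.extend e d 1) (Function.extend e (fun i => e (σ i)) id)).congr ?_
    intro x k
    by_cases hk : ∃ i, e i = k
    · obtain ⟨i, rfl⟩ := hk
      simp only [he.extend_apply]
    · simp [Function.extend_apply' _ _ _ hk]
  | shear τ lam h1 h2 =>
    refine (shear (Function.extend e (fun i => e (τ i)) id) (Function.extend e lam 0) ?_ ?_).congr ?_
    · intro k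
      by_cases hk : ∃ i, e i = k
      · obtain ⟨i, rfl⟩ := hk
        simp only [he.extend_apply, h1]
      · simp [Function.extend_apply' _ _ _ hk]
    · intro k
      by_cases hk : ∃ i, e i = k
      · obtain ⟨i, rfl⟩ := hk
        simp only [he.extend_apply, he.ne_iff]
        exact h2 i
      · simp [Function.extend_apply' _ _ _ hk]
    · intro x k
      by_cases hk : ∃ i, e i = k
      · obtain ⟨i, rfl⟩ := hk
        simp only [he.extend_apply]
      · simp [Function.extend_apply' _ _ _ hk]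
  | comp _ _ ih ih' =>
    refine (ih.comp ih').congr ?_
    intro x k
    by_cases hk : ∃ i, e i = k
    · obtain ⟨i, rfl⟩ := hk
      simp only [he.extend_apply]
    · simp [Function.extend_apply' _ _ _ hk]

/-- Transport along an equivalence, with relabelled inputs. -/
lemma transport {a : ℕ} {φ : (ι → ℂ) → (ι → ℂ)} (h : SL a φ) (e : ι ≃ κ) (σ : ι → κ) :
    SL a (fun (x : κ → ℂ) k => φ (fun i => x (σ i)) (e.symm k)) := by
  have := (h.embed e e.injective).comp (mon (fun _ => 1) (fun k => σ (e.symm k)))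
  refine this.congr fun x k => ?_
  obtain ⟨i, rfl⟩ := e.surjective k
  simp only [e.injective.extend_apply, Equiv.symm_apply_apply, one_mul]

/-- A layer adding multiples of the values at `s i` to the values at `t i`. -/
lemma addTo [Fintype ι] [DecidableEq κ] (s t : ι → κ) (hs : Function.Injective s)
    (ht : Function.Injective t)
    (hst : ∀ i j, s i ≠ t j) (lam : ι → ℂ) :
    SL 1 (fun (x : κ → ℂ) k => x k + ∑ i, if t i = k then lam i * x (s i) else 0) := by
  have h0 : SL 1 _ := shear (Sum.swap : ι ⊕ ι → ι ⊕ ι) (Sum.elim 0 lam) (by simp) (by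
    rintro (i | i) <;> simp)
  have he : Function.Injective (Sum.elim s t) := by
    rintro (i | i) (j | j) h
    · exact congrArg _ (hs h)
    · exact absurd h (hst _ _)
    · exact absurd h.symm (hst _ _)
    · exact congrArg _ (ht h)
  refine (h0.embed _ he).congr fun x k => ?_
  by_cases hk : ∃ i, Sum.elim s t i = k
  · obtain ⟨i, rfl⟩ := hk
    rw [he.extend_apply]
    rcases i with i | i
    · simp [fun j => (hst i j).symm]
    · show (x (t i) + ∑ j, if t j = t i then lam j * x (s j) else 0) = x (t i) + lam i * x (s i)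
      rw [Finset.sum_eq_single i (fun j _ hj => if_neg fun h => hj (ht h)) (by simp), if_pos rfl]
  · rw [Function.extend_apply' _ _ _ hk, Finset.sum_eq_zero, add_zero]
    intro i _
    exact if_neg fun h => hk ⟨Sum.inr i, h⟩

end SL

end Crest.Agent.Dft
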