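import Crest.Agent.Dft.Gadget

/-! The three-stage swap network built from the gadget. -/

set_option autoImplicit false

namespace Crest.Agent.Dft
open Finset

variable {V : Type} [AddCommGroup V] [Module ℂ V]

namespace Sys

variable {N : Type*} [AddCommGroup N] [Module ℂ N] {sy : Sys V N}
variable {R : Type*} [CommRing R] [Module R N] [Algebra ℂ R] [IsScalarTower ℂ R N]

variable (sy) in
/-- One stage of the network. -/
def Stage {I Z : Type*} (c : ℝ) (ν Q : I → R) (T : Z → R) : Prop :=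
  ∀ (ε : ℂ) (X Y : I → N) (z : Z → N),
    sy.RCan c (Set.range X ∪ Set.range Y ∪ Set.range z)
      (Set.range (fun α => Q α • X α) ∪ Set.range (fun α => Q α • (Y α + ε • ν α • X α))
        ∪ Set.range (fun e => T e • z e))

lemma Stage.par {I A Sx E : Type*} [Fintype Sx] {c : ℝ} {ν Q : I → R} {T : Sx × E → R}
    (emb : Sx → A → I) (hsurj : ∀ t, ∃ s α, emb s α = t)
    (h : ∀ s, sy.Stage c (fun α => ν (emb s α)) (fun α => Q (emb s α)) (fun e => T (s, e))) :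
    sy.Stage (Fintype.card Sx * c) ν Q T := by
  intro ε X Y z
  have h1 : ∀ s, sy.RCan c (Set.range X ∪ Set.range Y ∪ Set.range z) _ := fun s =>
    (h s ε (fun α => X (emb s α)) (fun α => Y (emb s α)) (fun e => z (s, e))).mono le_rfl
      (by
        rintro _ ((⟨α, rfl⟩ | ⟨α, rfl⟩) | ⟨e, rfl⟩) <;> simp) le_rfl
  refine (RCan.iUnion h1).mono le_rfl le_rfl ?_
  rintro _ ((⟨t, rfl⟩ | ⟨t, rfl⟩) | ⟨⟨s, e⟩, rfl⟩)
  · obtain ⟨s, α, rfl⟩ := hsurj t
    exact Set.mem_iUnion.2 ⟨s, Or.inl (Or.inl ⟨α, rfl⟩)⟩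
  · obtain ⟨s, α, rfl⟩ := hsurj t
    exact Set.mem_iUnion.2 ⟨s, Or.inl (Or.inr ⟨α, rfl⟩)⟩
  · exact Set.mem_iUnion.2 ⟨s, Or.inr ⟨e, rfl⟩⟩

theorem network {I Z U : Type*} [Fintype I] [Fintype Z] [Fintype U] {c cR cA cF : ℝ}
    (P Q1 Q2 Q3 Rest : I → R) (T1 T2 T3 R1 R2 R3 : Z → R) (Full : R)
    (h1 : sy.Stage c (fun t => P t ^ 3) Q1 T1) (h2 : sy.Stage c (fun t => P t ^ 3) Q2 T2)
    (h3 : sy.Stage c (fun t => P t ^ 3) Q3 T3) (hP4 : ∀ t, P t ^ 4 = 1)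
    (hP2 : ∀ t, sy.St 0 (P t ^ 2)) (hRest : ∀ t, sy.St cR (Rest t))
    (hFull : ∀ t, Full = P t * Q1 t * Q2 t * Q3 t * Rest t)
    (hR1 : ∀ e, sy.St cA (R1 e)) (hR2 : ∀ e, sy.St cA (R2 e)) (hR3 : ∀ e, sy.St cA (R3 e))
    (hF1 : ∀ e, Full = T1 e * R1 e) (hF2 : ∀ e, Full = T2 e * R2 e)
    (hF3 : ∀ e, Full = T3 e * R3 e) (hF : sy.St cF Full)
    (f : (I ⊕ I) ⊕ (Z ⊕ Z ⊕ Z) ⊕ U → N) :
    sy.RCan (3 * c + 2 * Fintype.card I * cR + Fintype.card I * sy.n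
        + 3 * Fintype.card Z * cA + Fintype.card U * cF)
      (Set.range f) (Set.range fun b => Full • f b) := by
  let X0 : I → N := fun t => f (.inl (.inl t))
  let Y0 : I → N := fun t => f (.inl (.inr t))
  let z1 : Z → N := fun e => f (.inr (.inl (.inl e)))
  let z2 : Z → N := fun e => f (.inr (.inl (.inr (.inl e))))
  let z3 : Z → N := fun e => f (.inr (.inl (.inr (.inr e))))
  let u : U → N := fun e => f (.inr (.inr e))
  let X1 : I → N := fun t => Q1 t • X0 t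
  let Y1 : I → N := fun t => Q1 t • (Y0 t + (1 : ℂ) • P t ^ 3 • X0 t)
  let X1' : I → N := fun t => P t ^ 2 • X1 t
  let Y2 : I → N := fun t => Q2 t • Y1 t
  let X2' : I → N := fun t => Q2 t • (X1' t + (-1 : ℂ) • P t ^ 3 • Y1 t)
  let X2 : I → N := fun t => P t ^ 2 • X2' t
  let X3 : I → N := fun t => Q3 t • X2 t
  let Y3 : I → N := fun t => Q3 t • (Y2 t + (1 : ℂ) • P t ^ 3 • X2 t)
  set S0 := Set.range f with hS0
  have a1 : sy.RCan c S0 (Set.range X1 ∪ Set.range Y1 ∪ Set.range (fun e => T1 e • z1 e)) :=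
    (h1 1 X0 Y0 z1).mono le_rfl (by
      rintro _ ((⟨α, rfl⟩ | ⟨α, rfl⟩) | ⟨e, rfl⟩) <;> exact ⟨_, rfl⟩) le_rfl
  set S1 := S0 ∪ (Set.range X1 ∪ Set.range Y1 ∪ Set.range (fun e => T1 e • z1 e)) with hS1
  have a2 : sy.RCan _ S1 (Set.range X1') :=
    RCan.range fun t => (RCan.mem (by simp [hS1])).step (hP2 t)
  set S2 := S1 ∪ Set.range X1' with hS2
  have a3 : sy.RCan c S2 (Set.range Y2 ∪ Set.range X2' ∪ Set.range (fun e => T2 e • z2 e)) :=
    (h2 (-1) Y1 X1' z2).mono le_rfl (by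
      rintro _ ((⟨α, rfl⟩ | ⟨α, rfl⟩) | ⟨e, rfl⟩) <;> simp [hS2, hS1, hS0, z2]) le_rfl
  set S3 := S2 ∪ (Set.range Y2 ∪ Set.range X2' ∪ Set.range (fun e => T2 e • z2 e)) with hS3
  have a4 : sy.RCan _ S3 (Set.range X2) :=
    RCan.range fun t => (RCan.mem (by simp [hS3])).step (hP2 t)
  set S4 := S3 ∪ Set.range X2 with hS4
  have a5 : sy.RCan c S4 (Set.range X3 ∪ Set.range Y3 ∪ Set.range (fun e => T3 e • z3 e)) :=
    (h3 1 X2 Y2 z3).mono le_rfl (by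
      rintro _ ((⟨α, rfl⟩ | ⟨α, rfl⟩) | ⟨e, rfl⟩) <;> simp [hS4, hS3, hS2, hS1, hS0, z3]) le_rfl
  set S5 := S4 ∪ (Set.range X3 ∪ Set.range Y3 ∪ Set.range (fun e => T3 e • z3 e)) with hS5
  have b1 : sy.RCan _ S5 (Set.range fun t => Rest t • P t ^ 2 • Y3 t) :=
    RCan.range fun t => ((RCan.mem (by simp [hS5])).step (hP2 t)).step (hRest t)
  have b2 : sy.RCan _ S5 (Set.range fun t => Rest t • (-1 : ℂ) • X3 t) :=
    RCan.range fun t => ((RCan.mem (by simp [hS5])).smul (-1)).step (hRest t)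
  have b3 : sy.RCan _ S5 (Set.range fun e => R1 e • T1 e • z1 e) :=
    RCan.range fun e => (RCan.mem (by simp [hS5, hS4, hS3, hS2, hS1])).step (hR1 e)
  have b4 : sy.RCan _ S5 (Set.range fun e => R2 e • T2 e • z2 e) :=
    RCan.range fun e => (RCan.mem (by simp [hS5, hS4, hS3])).step (hR2 e)
  have b5 : sy.RCan _ S5 (Set.range fun e => R3 e • T3 e • z3 e) :=
    RCan.range fun e => (RCan.mem (by simp [hS5])).step (hR3 e)
  have b6 : sy.RCan _ S5 (Set.range fun e => Full • u e) :=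
    RCan.range fun e => (RCan.mem (by simp [hS5, hS4, hS3, hS2, hS1, hS0, u])).step hF
  have hall := a1.trans (a2.trans (a3.trans (a4.trans (a5.trans
    ((b1.union b2).union ((b3.union (b4.union b5)).union b6))))))
  refine hall.mono (le_of_eq (by ring)) le_rfl ?_
  rintro _ ⟨(t | t) | (e | e | e) | e, rfl⟩
  · refine Or.inl (Or.inl ⟨t, ?_⟩)
    simp only [Y3, Y2, Y1, X2, X2', X1', X1, hFull t]
    have := hP4 t
    linear_combination (norm := module)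
      (Rest t * Q3 t * Q2 t * Q1 t * (P t - P t ^ 9) * this) • X0 t
      - (Rest t * Q3 t * Q2 t * Q1 t * (P t ^ 2 + P t ^ 6) * this) • Y0 t
  · refine Or.inl (Or.inr ⟨t, ?_⟩)
    simp only [X3, Y1, X2, X2', X1', X1, hFull t]
    have := hP4 t
    linear_combination (norm := module)
      (Rest t * Q3 t * Q2 t * Q1 t * P t ^ 4 * this) • X0 t
      + (Rest t * Q3 t * Q2 t * Q1 t * P t * this) • Y0 t
  · exact Or.inr (Or.inl (Or.inl ⟨e, by simp only [hF1 e, ← mul_smul, mul_comm]; rfl⟩))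
  · exact Or.inr (Or.inl (Or.inr (Or.inl ⟨e, by simp only [hF2 e, ← mul_smul, mul_comm]; rfl⟩)))
  · exact Or.inr (Or.inl (Or.inr (Or.inr ⟨e, by simp only [hF3 e, ← mul_smul, mul_comm]; rfl⟩)))
  · exact Or.inr (Or.inr ⟨e, rfl⟩)

end Sys

end Crest.Agent.Dft
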