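import Crest.Agent.Dft.Stage

/-! The recursion for the batched tensor power. -/

set_option autoImplicit false

namespace Crest.Agent.Dft
open Finset Complex Matrix

variable {V : Type} [AddCommGroup V] [Module ℂ V]

/-- The batch size. -/
def WW : ℕ := 2 ^ 39

/-- Linear overhead of the network. -/
noncomputable def netLin (E : ℝ) : ℝ := 3 * 560 ^ 2 * Sys.gadgetLin 560 E 16 + 560 ^ 3

lemma net_aux {R : Type*} [CommRing R] {A X Y Z T : R} (h : A ^ 4 = 1) :
    X * (Y * Z) * T = A * (X * A ^ 3) * (A * Y * A ^ 3) * (A * Z * A ^ 3) * T := by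
  linear_combination (-X * Y * Z * T * (1 + A ^ 4 + A ^ 8)) * h

lemma cross_inj {H : Type*} (a b c : H) : Function.Injective
    (Sum.elim (fun x : H => (x, b, c)) (Sum.elim
        (fun x : {x : H // x ≠ b} => (a, x.1, c))
        (fun x : {x : H // x ≠ c} => (a, b, x.1)))) := by
  rintro (x | ⟨x, hx⟩ | ⟨x, hx⟩) (y | ⟨y, hy⟩ | ⟨y, hy⟩) h <;>
    simp only [Sum.elim_inl, Sum.elim_inr, Prod.mk.injEq] at h <;> grind

section
variable {H16 : Type} [Fintype H16] [DecidableEq H16]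
variable {J K : Type*} [Fintype J] [Fintype K] [DecidableEq J] [DecidableEq K]
  (e : M3 H16 × J → K)

theorem net (hH : Fintype.card H16 = 16) {κ : ℝ}
    (hκ : ∀ u : M3 H16 → F2, u ⬝ᵥ u = 1 → (walsh K V).St κ (Zw e u)) {U : Type} [Fintype U]
    (f : ((Tri H16 × Tri H16 × Tri H16) ⊕ (Tri H16 × Tri H16 × Tri H16)) ⊕
      (((Tri H16 × Tri H16) × Edge H16) ⊕ ((Tri H16 × Tri H16) × Edge H16) ⊕
        ((Tri H16 × Tri H16) × Edge H16)) ⊕ U → (K → F2) → V) :
    (walsh K V).RCan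
      ((4096 * (2 * 560 ^ 3 + 3 * 560 ^ 2 * Fintype.card (Edge H16) + Fintype.card U)
        - 560 ^ 2 * 352) * κ + netLin (Fintype.card (Edge H16)) * (walsh K V).n)
      (Set.range f) (Set.range fun b => Full e • f b) := by
  have hM : Fintype.card (M3 H16) = 4096 := by simp [hH]
  choose b p hb hp using fun α : Tri H16 => basis1 hH α
  have hbb : ∀ {ι : Type} [DecidableEq ι] {c : ι → M3 H16 → F2}, ON c → ∀ i, (walsh K V).St κ (Zw e (c i)) :=
    fun hc i => hκ _ (by rw [hc, if_pos rfl])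
  let P : Tri H16 × Tri H16 × Tri H16 → (K → F2) → ℂ :=
    fun t => Zw e (t3 (uu t.1) (uu t.2.1) (uu t.2.2))
  have hPu : ∀ t : Tri H16 × Tri H16 × Tri H16,
      t3 (uu t.1) (uu t.2.1) (uu t.2.2) ⬝ᵥ t3 (uu t.1) (uu t.2.1) (uu t.2.2) = 1 := fun t => by
    simp [t3_dot, uu_self]
  have hP4 : ∀ t, P t ^ 4 = 1 := fun t => Zw_pow4 e (hPu t)
  let T1 : Tri H16 × Tri H16 → (K → F2) → ℂ := fun s => Tl e (L1 (uu s.1) (uu s.2))
  let T2 : Tri H16 × Tri H16 → (K → F2) → ℂ := fun s => Tl e (L2 (uu s.1) (uu s.2))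
  let T3 : Tri H16 × Tri H16 → (K → F2) → ℂ := fun s => Tl e (L3 (uu s.1) (uu s.2))
  have s1 : (walsh K V).Stage _ (fun t => P t ^ 3) (fun t => T1 (t.2.1, t.2.2) * P t ^ 3)
      (fun x : (Tri H16 × Tri H16) × Edge H16 => T1 x.1) :=
    Sys.Stage.par (fun s α => (α, s.1, s.2)) (fun t => ⟨(t.2.1, t.2.2), t.1, rfl⟩)
      fun s => (stage e hH hκ (L1 (uu s.1) (uu s.2)) (L1_iso s.1 s.2) :)
  have s2 : (walsh K V).Stage _ (fun t => P t ^ 3) (fun t => T2 (t.1, t.2.2) * P t ^ 3)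
      (fun x : (Tri H16 × Tri H16) × Edge H16 => T2 x.1) :=
    Sys.Stage.par (fun s α => (s.1, α, s.2)) (fun t => ⟨(t.1, t.2.2), t.2.1, rfl⟩)
      fun s => (stage e hH hκ (L2 (uu s.1) (uu s.2)) (L2_iso s.1 s.2) :)
  have s3 : (walsh K V).Stage _ (fun t => P t ^ 3) (fun t => T3 (t.1, t.2.1) * P t ^ 3)
      (fun x : (Tri H16 × Tri H16) × Edge H16 => T3 x.1) :=
    Sys.Stage.par (fun s α => (s.1, s.2, α)) (fun t => ⟨(t.1, t.2.1), t.2.2, rfl⟩)
      fun s => (stage e hH hκ (L3 (uu s.1) (uu s.2)) (L3_iso s.1 s.2) :)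
  have r1 : ∀ s, ∃ Rest, (walsh K V).St (4080 * κ) Rest ∧ Full e = T1 s * Rest := fun s => by
    have hc := ON.t3 (ON.std (M := H16)) (hb s.1) (hb s.2)
    obtain ⟨Rest, h1, h2⟩ := factor _ (hbb hc) (fun x : H16 => (x, p s.1, p s.2))
      (fun x y h => (Prod.mk.inj h).1)
    refine ⟨Rest, h1.le (le_of_eq (by rw [hM, hH]; norm_num)), ?_⟩
    rw [← prod_Zw_full e hc, h2]
    simp only [hp, T1]
    rw [← prod_Zw_L e _ (L1_iso s.1 s.2) ON.std]
    rfl
  have r2 : ∀ s, ∃ Rest, (walsh K V).St (4080 * κ) Rest ∧ Full e = T2 s * Rest := fun s => by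
    have hc := ON.t3 (hb s.1) (ON.std (M := H16)) (hb s.2)
    obtain ⟨Rest, h1, h2⟩ := factor _ (hbb hc) (fun x : H16 => (p s.1, x, p s.2))
      (fun x y h => (Prod.mk.inj (Prod.mk.inj h).2).1)
    refine ⟨Rest, h1.le (le_of_eq (by rw [hM, hH]; norm_num)), ?_⟩
    rw [← prod_Zw_full e hc, h2]
    simp only [hp, T2]
    rw [← prod_Zw_L e _ (L2_iso s.1 s.2) ON.std]
    rfl
  have r3 : ∀ s, ∃ Rest, (walsh K V).St (4080 * κ) Rest ∧ Full e = T3 s * Rest := fun s => by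
    have hc := ON.t3 (hb s.1) (hb s.2) (ON.std (M := H16))
    obtain ⟨Rest, h1, h2⟩ := factor _ (hbb hc) (fun x : H16 => (p s.1, p s.2, x))
      (fun x y h => (Prod.mk.inj (Prod.mk.inj h).2).2)
    refine ⟨Rest, h1.le (le_of_eq (by rw [hM, hH]; norm_num)), ?_⟩
    rw [← prod_Zw_full e hc, h2]
    simp only [hp, T3]
    rw [← prod_Zw_L e _ (L3_iso s.1 s.2) ON.std]
    rfl
  have r0 : ∀ t : Tri H16 × Tri H16 × Tri H16, ∃ Rest, (walsh K V).St (4050 * κ) Rest ∧
      Full e = P t * (T1 (t.2.1, t.2.2) * P t ^ 3) * (T2 (t.1, t.2.2) * P t ^ 3) *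
        (T3 (t.1, t.2.1) * P t ^ 3) * Rest := fun t => by
    obtain ⟨α, β, γ⟩ := t
    have hc := ON.t3 (hb α) (hb β) (hb γ)
    obtain ⟨Rest, h1, h2⟩ := factor _ (hbb hc)
      _ (cross_inj (p α) (p β) (p γ))
    refine ⟨Rest, h1.le (le_of_eq (by rw [hM]; simp [hH]; norm_num)), ?_⟩
    rw [← prod_Zw_full e hc, h2]
    simp only [Fintype.prod_sum_type, Sum.elim_inl, Sum.elim_inr, hp]
    have e1 := prod_Zw_L e _ (L1_iso β γ) (hb α)
    have e2 := prod_Zw_L e _ (L2_iso α γ) (hb β)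
    have e3 := prod_Zw_L e _ (L3_iso α β) (hb γ)
    rw [Fintype.prod_eq_mul_prod_subtype_ne _ (p β), hp] at e2
    rw [Fintype.prod_eq_mul_prod_subtype_ne _ (p γ), hp] at e3
    simp only [T1, T2, T3]
    rw [← e1, ← e2, ← e3]
    exact net_aux (hP4 (α, β, γ))
  choose R1 hR1 hF1 using r1
  choose R2 hR2 hF2 using r2
  choose R3 hR3 hF3 using r3
  choose R0 hR0 hF0 using r0
  have hF : (walsh K V).St (4096 * κ) (Full e) := by
    have := Sys.St.prod univ (fun i _ => hbb (ON.std (M := M3 H16)) i)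
    rw [prod_Zw_full e ON.std, Finset.card_univ, hM] at this
    simpa using this
  have := Sys.network P _ _ _ R0 _ _ _ (fun x => R1 x.1) (fun x => R2 x.1) (fun x => R3 x.1)
    (Full e) s1 s2 s3 hP4 (fun t => St_Zw_sq e (hPu t)) hR0 hF0 (fun x => hR1 x.1)
    (fun x => hR2 x.1) (fun x => hR3 x.1) (fun x => hF1 x.1) (fun x => hF2 x.1) (fun x => hF3 x.1)
    hF f
  refine this.le (le_of_eq ?_)
  simp only [Fintype.card_prod, card_Tri hH, gcost, netLin]
  push_cast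
  ring

end

variable (V) in
/-- The batched tensor power on `k` coordinates costs `t` per entry. -/
def Good (k : ℕ) (t : ℝ) : Prop := BC V (t * WW * 2 ^ k) WW (Cm (Fin k))

lemma Good.le {k : ℕ} {t t' : ℝ} (h : Good V k t) (ht : t ≤ t') : Good V k t' :=
  fun f => (h f).le (by gcongr)

lemma om_prod {K : Type*} [Fintype K] [DecidableEq K] :
    (om : (K → F2) → ℂ) = ∏ p : K, fun y : K → F2 => io (Pi.single p 1 ⬝ᵥ y) := by
  funext y
  simp [om, Finset.prod_apply]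

lemma good_base (k : ℕ) : Good V k (4 * k) := by
  refine BC_of_RCan (Fin WW) (by simp) fun z => ?_
  have h1 := Sys.St.prod (univ : Finset (Fin k)) fun p _ => St_io (V := V) (Pi.single p 1)
  rw [← om_prod] at h1
  have := Sys.RCan.range (sy := walsh (Fin k) V) (S := Set.range z)
    fun b => (Sys.RCan.mem (Set.mem_range_self b)).step h1
  refine this.le (le_of_eq ?_)
  simp [walsh_n]; ring

lemma good_step {H16 : Type} [Fintype H16] [DecidableEq H16] (hH : Fintype.card H16 = 16)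
    {r k : ℕ} {t : ℝ} (h : Good V r t) (hr : 1 ≤ r) (h1 : 4096 * r ≤ k) (h2 : k < 4096 * r + 4096) :
    Good V k ((4096 - 560 ^ 2 * 352 / 2 ^ 39) * t +
      (netLin (Fintype.card (Edge H16)) / 2 ^ 39 + 4 * 4096)) := by
  have hM : Fintype.card (M3 H16) = 4096 := by simp [hH]
  obtain ⟨e⟩ : Nonempty (M3 H16 × Fin r ↪ Fin k) :=
    Function.Embedding.nonempty_of_card_le (by rw [Fintype.card_prod, hM]; simpa using h1)
  have hE := card_Edge hH
  obtain ⟨d, hd⟩ : ∃ d, k = d + 39 + r := ⟨k - 39 - r, by omega⟩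
  have hq : Fintype.card (Fin k → F2) ≤ 2 ^ d * WW * Fintype.card (Fin r → F2) := by
    simp only [Fintype.card_fun, ZMod.card, Fintype.card_fin, WW, ← pow_add, hd, le_refl]
  have hκ := fun (u : M3 H16 → F2) (hu : u ⬝ᵥ u = 1) => St_Zw e e.injective h hq hu
  have hW : 2 * 560 ^ 3 + 3 * 560 ^ 2 * Fintype.card (Edge H16) ≤ WW := by
    unfold WW; omega
  refine BC_of_RCan (((Tri H16 × Tri H16 × Tri H16) ⊕ (Tri H16 × Tri H16 × Tri H16)) ⊕
      (((Tri H16 × Tri H16) × Edge H16) ⊕ ((Tri H16 × Tri H16) × Edge H16) ⊕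
        ((Tri H16 × Tri H16) × Edge H16)) ⊕
        Fin (WW - (2 * 560 ^ 3 + 3 * 560 ^ 2 * Fintype.card (Edge H16)))) (by
      simp only [Fintype.card_sum, Fintype.card_prod, card_Tri hH, Fintype.card_fin]
      omega) fun z => ?_
  have h3 := net e hH hκ z
  obtain ⟨Rest, h4, h5⟩ := factor _ (fun p : Fin k => St_io (V := V) (Pi.single p 1)) e e.injective
  have h6 : (om : (Fin k → F2) → ℂ) = Rest * Full e := by
    rw [om_prod, h5, mul_comm]
    congr 1
    funext y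
    simp only [Finset.prod_apply, Full, om, col, single_dotProduct, one_mul]
    rw [Fintype.prod_prod_type, Finset.prod_comm]
  have h7 := Sys.RCan.range (sy := walsh (Fin k) V) (S := Set.range fun b => Full e • z b)
    fun b => (Sys.RCan.mem (Set.mem_range_self b)).step h4
  simp only [← mul_smul, ← h6] at h7
  refine (h3.trans' h7).le ?_
  simp only [Fintype.card_sum, Fintype.card_prod, card_Tri hH, Fintype.card_fin, walsh_n, hH,
    Nat.cast_add, Nat.cast_mul, Nat.cast_sub hW, Nat.cast_pow, Nat.cast_ofNat]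
  have hk : (2 : ℝ) ^ k = 2 ^ d * 2 ^ 39 * 2 ^ r := by rw [hd, pow_add, pow_add]
  have h8 : (k : ℝ) - 4096 * r ≤ 4096 := by
    have : (k : ℝ) ≤ 4096 * r + 4096 := by exact_mod_cast h2.le
    linarith
  have hWW : (WW : ℝ) = 2 ^ 39 := by unfold WW; norm_num
  have h9 : (0 : ℝ) ≤ 2 ^ 39 * 2 ^ k * 4 := by positivity
  have h10 := mul_le_mul_of_nonneg_left h8 h9
  rw [hWW]
  have h11 : (2 : ℝ) ^ d * (t * 2 ^ 39 * 2 ^ r) = t * 2 ^ k := by rw [hk]; ring
  rw [h11]
  nlinarith [h10]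

end Crest.Agent.Dft
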