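import Crest.Agent.Dft.Frame

/-! The concrete saving network on triples of a sixteen-element set. -/

set_option autoImplicit false

namespace Crest.Agent.Dft
open Finset Complex Matrix

variable {V : Type} [AddCommGroup V] [Module ℂ V]

variable {H16 : Type} [Fintype H16] [DecidableEq H16]

variable (H16) in
/-- Three-element subsets. -/
abbrev Tri := {s : Finset H16 // s.card = 3}

lemma card_Tri (hH : Fintype.card H16 = 16) : Fintype.card (Tri H16) = 560 := by
  have := Fintype.card_finset_len (α := H16) 3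
  rw [hH] at this
  exact this.trans (by decide)

/-- The indicator vector of a triple. -/
def uu (α : Tri H16) : H16 → F2 := fun p => if p ∈ α.1 then 1 else 0

lemma uu_dot (α β : Tri H16) : uu α ⬝ᵥ uu β = ((α.1 ∩ β.1).card : F2) := by
  simp only [dotProduct, uu, ite_mul, one_mul, zero_mul, ← ite_and, ← Finset.mem_inter]
  rw [Finset.sum_ite_mem]
  simp

lemma uu_self (α : Tri H16) : uu α ⬝ᵥ uu α = 1 := by
  rw [uu_dot, Finset.inter_self, α.2]; decide

variable (H16) in
/-- Orthogonal pairs of triples. -/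
abbrev Edge := {p : Tri H16 × Tri H16 // uu p.1 ⬝ᵥ uu p.2 = 0}

lemma card_Edge (hH : Fintype.card H16 = 16) : Fintype.card (Edge H16) ≤ 560 * 560 := by
  have := Fintype.card_subtype_le fun p : Tri H16 × Tri H16 => uu p.1 ⬝ᵥ uu p.2 = 0
  rwa [Fintype.card_prod, card_Tri hH] at this

lemma uu_single {α : Tri H16} {p : H16} (hp : p ∉ α.1) : uu α ⬝ᵥ Pi.single p 1 = 0 := by
  simp [uu, hp]

lemma exists_notMem (hH : Fintype.card H16 = 16) (s : Finset H16) (hs : s.card < 16) : ∃ p, p ∉ s := by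
  by_contra h
  push Not at h
  have : s = univ := Finset.eq_univ_iff_forall.2 h
  rw [this] at hs
  simp [hH] at hs

lemma basis1 (hH : Fintype.card H16 = 16) (α : Tri H16) : ∃ (b : H16 → H16 → F2) (p : H16), ON b ∧ b p = uu α := by
  obtain ⟨p, hp⟩ := exists_notMem hH α.1 (by rw [α.2]; norm_num)
  obtain ⟨b, hb, h1, -⟩ := ON.std.exchange p (uu α) (uu_self α) (uu_single hp)
  exact ⟨b, p, hb, h1⟩

lemma basis2 (hH : Fintype.card H16 = 16) {α β : Tri H16} (h : uu α ⬝ᵥ uu β = 0) :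
    ∃ (b : H16 → H16 → F2) (p q : H16), ON b ∧ p ≠ q ∧ b p = uu α ∧ b q = uu β := by
  obtain ⟨p, hp⟩ := exists_notMem hH α.1 (by rw [α.2]; norm_num)
  obtain ⟨q, hq⟩ := exists_notMem hH (insert p (α.1 ∪ β.1)) (by
    have h1 := Finset.card_insert_le p (α.1 ∪ β.1)
    have h2 := Finset.card_union_le α.1 β.1
    rw [α.2, β.2] at h2
    omega)
  simp only [Finset.mem_insert, Finset.mem_union, not_or] at hq
  obtain ⟨b, hb, h1, h2⟩ := ON.std.exchange p (uu α) (uu_self α) (uu_single hp)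
  have h3 := h2 q hq.1 (uu_single hq.2.1)
  obtain ⟨b', hb', h4, h5⟩ := hb.exchange q (uu β) (uu_self β) (by
    rw [h3]; exact uu_single hq.2.2)
  refine ⟨b', p, q, hb', Ne.symm hq.1, ?_, h4⟩
  rw [h5 p (Ne.symm hq.1) (by rw [h1, dotProduct_comm, h]), h1]

lemma tri_matrix (α β : Tri H16) :
    ∑ j : H16, (if j ∈ α.1 then (1 : ℂ) else 0) * (((if j ∈ β.1 then (1 : ℂ) else 0) - 1 / 3) / 2) =
      (if α = β then 1 else 0) + ∑ e : Edge H16, if e.1.1 = α ∧ e.1.2 = β then
        ((((e.1.1.1 ∩ e.1.2.1).card : ℂ) - 1) / 2) else 0 := by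
  have h1 : ∑ j : H16, (if j ∈ α.1 then (1 : ℂ) else 0) *
      (((if j ∈ β.1 then (1 : ℂ) else 0) - 1 / 3) / 2) = (((α.1 ∩ β.1).card : ℂ) - 1) / 2 := by
    simp only [ite_mul, one_mul, zero_mul]
    rw [Finset.sum_ite_mem, Finset.univ_inter, ← Finset.sum_div, Finset.sum_sub_distrib,
      Finset.sum_ite_mem]
    simp [α.2]
  rw [h1]
  by_cases h : uu α ⬝ᵥ uu β = 0
  · have hne : α ≠ β := by
      rintro rfl
      rw [uu_self] at h
      exact one_ne_zero h
    rw [if_neg hne, zero_add, Finset.sum_eq_single (⟨(α, β), h⟩ : Edge H16)]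
    · simp
    · intro e _ he
      rw [if_neg]
      rintro ⟨h1, h2⟩
      exact he (Subtype.ext (Prod.ext h1 h2))
    · simp
  · rw [Finset.sum_eq_zero, add_zero]
    · split_ifs with hab
      · subst hab
        rw [Finset.inter_self, α.2]; norm_num
      · have hle : (α.1 ∩ β.1).card ≤ 3 := (Finset.card_le_card Finset.inter_subset_left).trans α.2.le
        have hne : (α.1 ∩ β.1).card ≠ 3 := by
          intro h3
          apply hab
          apply Subtype.ext
          have e1 := Finset.eq_of_subset_of_card_le (Finset.inter_subset_left (s₁ := α.1) (s₂ := β.1))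
            (by rw [h3, α.2])
          have e2 := Finset.eq_of_subset_of_card_le (Finset.inter_subset_right (s₁ := α.1) (s₂ := β.1))
            (by rw [h3, β.2])
          rw [← e1, e2]
        rw [uu_dot] at h
        have : (α.1 ∩ β.1).card = 1 := by
          generalize (α.1 ∩ β.1).card = c at *
          interval_cases c
          · simp at h
          · rfl
          · exact absurd (by decide) h
          · exact absurd rfl hne
        rw [this]; simp
    · intro e _
      rw [if_neg]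
      rintro ⟨rfl, rfl⟩
      exact h e.2

section
variable {M J K : Type*} [Fintype M] [Fintype J] [Fintype K] [DecidableEq M] [DecidableEq J]
  [DecidableEq K] (e : M × J → K)

/-- The cost of one gadget. -/
noncomputable def gcost (E κ n : ℝ) : ℝ :=
  2 * 560 * (15 * κ) + 16 * (16 * κ) + E * (16 * κ) + Sys.gadgetLin 560 E 16 * n

theorem stage (hH : Fintype.card H16 = 16) {κ : ℝ} (hκ : ∀ u : M → F2, u ⬝ᵥ u = 1 → (walsh K V).St κ (Zw e u))
    (L : (H16 → F2) →ₗ[F2] (M → F2)) (hL : ∀ x x', L x ⬝ᵥ L x' = x ⬝ᵥ x') :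
    (walsh K V).Stage (gcost (Fintype.card (Edge H16)) κ (walsh K V).n) (fun α => Zw e (L (uu α)) ^ 3)
      (fun α => Tl e L * Zw e (L (uu α)) ^ 3) (fun _ : Edge H16 => Tl e L) := by
  have hu : ∀ α, L (uu α) ⬝ᵥ L (uu α) = 1 := fun α => by rw [hL, uu_self]
  have hb1 : ∀ {b : H16 → H16 → F2}, ON b → ∀ p, L (b p) ⬝ᵥ L (b p) = 1 := fun hb p => by
    rw [hL, hb, if_pos rfl]
  have h4 := fun α => Zw_pow4 e (hu α)
  have hQ : ∀ α, (walsh K V).St (15 * κ) (Tl e L * Zw e (L (uu α)) ^ 3) := fun α => by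
    obtain ⟨b, p, hb, hp⟩ := basis1 hH α
    obtain ⟨Rest, h1, h2⟩ := factor (fun p => Zw e (L (b p))) (fun p => hκ _ (hb1 hb p))
      (fun _ : Unit => p) (fun _ _ _ => rfl)
    rw [prod_Zw_L e L hL hb, Fintype.prod_unique, hp] at h2
    have : Tl e L * Zw e (L (uu α)) ^ 3 = Rest := by
      rw [h2]; linear_combination Rest * h4 α
    rw [this]
    exact h1.le (le_of_eq (by simp [hH]; norm_num))
  have hK : ∀ x : Edge H16, (walsh K V).St (14 * κ)
      (Tl e L * Zw e (L (uu x.1.1)) ^ 3 * Zw e (L (uu x.1.2)) ^ 3) := fun x => by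
    obtain ⟨b, p, q, hb, hpq, hp, hq⟩ := basis2 hH x.2
    obtain ⟨Rest, h1, h2⟩ := factor (fun p => Zw e (L (b p))) (fun p => hκ _ (hb1 hb p))
      (fun t : Bool => if t then p else q) (by
        intro s t; cases s <;> cases t <;> simp [hpq, hpq.symm])
    rw [prod_Zw_L e L hL hb, Fintype.prod_bool] at h2
    simp only [if_true, Bool.false_eq_true, if_false, hp, hq] at h2
    have : Tl e L * Zw e (L (uu x.1.1)) ^ 3 * Zw e (L (uu x.1.2)) ^ 3 = Rest := by
      rw [h2]
      linear_combination Rest * Zw e (L (uu x.1.2)) ^ 4 * h4 x.1.1 + Rest * h4 x.1.2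
    rw [this]
    exact h1.le (le_of_eq (by simp [hH]; norm_num))
  have hT := prod_Zw_L e L hL (ON.std (M := H16))
  have hT' : (walsh K V).St (16 * κ) (Tl e L ^ 3) := by
    have := Sys.St.prod (univ : Finset H16) (fun p _ =>
      (hκ _ (hb1 ON.std p)).mul (St_Zw_sq e (hb1 ON.std p)))
    rw [Finset.prod_mul_distrib, Finset.prod_pow, hT, ← pow_succ'] at this
    exact this.le (le_of_eq (by simp [hH]))
  have hT4 : Tl e L ^ 3 * Tl e L = 1 := by
    rw [← pow_succ, ← hT, ← Finset.prod_pow]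
    exact Finset.prod_eq_one fun p _ => Zw_pow4 e (hb1 ON.std p)
  intro ε X Y z
  have := Sys.gadget (fun α => Zw e (L (uu α))) (fun α => Tl e L * Zw e (L (uu α)) ^ 3)
    (fun α => Zw e (L (uu α)) ^ 3)
    (fun x : Edge H16 => Tl e L * Zw e (L (uu x.1.1)) ^ 3 * Zw e (L (uu x.1.2)) ^ 3) (Tl e L)
    (Tl e L ^ 3) (fun x => x.1.2) (fun x => x.1.1) _ _ _ tri_matrix (fun α => hκ _ (hu α)) hQ hK hT'
    (fun α => by linear_combination Tl e L * h4 α)
    (fun x => by linear_combination Tl e L * Zw e (L (uu x.1.1)) ^ 3 * h4 x.1.2) hT4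
    (fun α => by linear_combination h4 α) ε X Y z
  refine this.le (le_of_eq ?_)
  simp only [gcost, card_Tri hH, hH]
  push_cast
  ring

end

variable (H16) in
/-- The index set of the tensor cube. -/
abbrev M3 := H16 × H16 × H16

/-- Tensor product of three vectors. -/
def t3 (x y z : H16 → F2) : M3 H16 → F2 := fun μ => x μ.1 * y μ.2.1 * z μ.2.2

lemma t3_dot (x y z x' y' z' : H16 → F2) :
    t3 x y z ⬝ᵥ t3 x' y' z' = (x ⬝ᵥ x') * (y ⬝ᵥ y') * (z ⬝ᵥ z') := by
  simp only [dotProduct, t3, Fintype.sum_prod_type]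
  rw [mul_assoc, Finset.sum_mul]
  refine Finset.sum_congr rfl fun a _ => ?_
  rw [Finset.sum_mul, Finset.mul_sum]
  refine Finset.sum_congr rfl fun b _ => ?_
  rw [Finset.mul_sum, Finset.mul_sum]
  exact Finset.sum_congr rfl fun c _ => by ring

lemma ON.t3 {b1 b2 b3 : H16 → H16 → F2} (h1 : ON b1) (h2 : ON b2) (h3 : ON b3) :
    ON fun μ : M3 H16 => t3 (b1 μ.1) (b2 μ.2.1) (b3 μ.2.2) := by
  rintro ⟨p, q, r⟩ ⟨p', q', r'⟩
  simp only [t3_dot, h1 p p', h2 q q', h3 r r', Prod.mk.injEq]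
  by_cases a : p = p' <;> by_cases b : q = q' <;> by_cases c : r = r' <;> simp [a, b, c]

/-- Embedding along the first factor. -/
def L1 (y z : H16 → F2) : (H16 → F2) →ₗ[F2] (M3 H16 → F2) where
  toFun x := t3 x y z
  map_add' x x' := by funext μ; simp [t3, add_mul]
  map_smul' c x := by funext μ; simp [t3, mul_assoc]

/-- Embedding along the second factor. -/
def L2 (x z : H16 → F2) : (H16 → F2) →ₗ[F2] (M3 H16 → F2) where
  toFun y := t3 x y z
  map_add' y y' := by funext μ; simp [t3, add_mul, mul_add]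
  map_smul' c y := by funext μ; simp only [t3, Pi.smul_apply, smul_eq_mul, RingHom.id_apply]; ring

/-- Embedding along the third factor. -/
def L3 (x y : H16 → F2) : (H16 → F2) →ₗ[F2] (M3 H16 → F2) where
  toFun z := t3 x y z
  map_add' z z' := by funext μ; simp [t3, mul_add]
  map_smul' c z := by funext μ; simp only [t3, Pi.smul_apply, smul_eq_mul, RingHom.id_apply]; ring

lemma L1_iso (β γ : Tri H16) (x x' : H16 → F2) :
    L1 (uu β) (uu γ) x ⬝ᵥ L1 (uu β) (uu γ) x' = x ⬝ᵥ x' := by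
  simp [L1, t3_dot, uu_self]

lemma L2_iso (β γ : Tri H16) (x x' : H16 → F2) :
    L2 (uu β) (uu γ) x ⬝ᵥ L2 (uu β) (uu γ) x' = x ⬝ᵥ x' := by
  simp [L2, t3_dot, uu_self]

lemma L3_iso (β γ : Tri H16) (x x' : H16 → F2) :
    L3 (uu β) (uu γ) x ⬝ᵥ L3 (uu β) (uu γ) x' = x ⬝ᵥ x' := by
  simp [L3, t3_dot, uu_self]

end Crest.Agent.Dft
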