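import Crest.Agent.Dft.Inplace
import Crest.Agent.Dft.Bound

/-! Cost of the Fourier transform on a product of cyclic rings, and the chirp reduction. -/

set_option autoImplicit false

namespace Crest.Agent.Dft
open Finset Complex Matrix

variable {V : Type} [AddCommGroup V] [Module ℂ V]

/-- The Fourier matrix of a character. -/
def Fm {R : Type*} [CommRing R] (ψ : R → ℂ) : Matrix R R ℂ := Matrix.of fun a b => ψ (a * b)

lemma can_fft (a : ℕ) (g : ZMod (2 ^ a) → V) :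
    Can ((40 * a + 1) * (2 * 2 ^ a)) (Set.range g) (Set.range (app (Fm (psi (2 ^ a))) g)) := by
  obtain ⟨A, hA, h⟩ := (fft_zmod a).layF
  have hA' : ∀ p q, A p q = if p.1 = q.1 then psi (2 ^ a) (p.2 * q.2) else 0 := by
    rintro ⟨b, i⟩ ⟨b', i'⟩
    have := congrFun (h (Pi.single (b', i') 1)) (b, i)
    rw [mulVec_single_one] at this
    rw [show A (b, i) (b', i') = A.col (b', i') (b, i) from rfl, this]
    simp only [Pi.single_apply, Prod.mk.injEq]
    by_cases hb : b = b' <;> simp [hb]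
  refine (hA.can fun p => g p.2).mono' (le_of_eq ?_) ?_ ?_
  · simp; ring
  · rintro _ ⟨p, rfl⟩; exact ⟨_, rfl⟩
  · rintro _ ⟨i, rfl⟩
    refine ⟨(true, i), ?_⟩
    simp [app, hA', Fintype.sum_prod_type, Fm]

section
variable {k : ℕ} (s : Fin k → ℕ) [∀ j, NeZero (s j)]

lemma bc_prod {t : ℝ} (ht : 0 ≤ t) (h : Good V k t) (D : ℕ)
    (hD : ∀ j, 144 * Nat.log 2 (s j) + 324 ≤ D) :
    BC V ((4 * D + 1 + 4 * D * t * (WW + 1)) * (12 ^ k * ∏ j, s j : ℕ)) (12 ^ k)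
      (Fm fun x : ∀ j, ZMod (s j) => ∏ j, psi (s j) (x j)) := by
  refine BC.of_type (Fin k → Bool × Fin 6) (by simp) fun z => ?_
  have hΩ : Fintype.card (∀ j, Bool × (Fin 6 × ZMod (s j))) = 12 ^ k * ∏ j, s j := by
    simp only [Fintype.card_pi, Fintype.card_prod, Fintype.card_bool, Fintype.card_fin, ZMod.card,
      ← mul_assoc, Finset.prod_mul_distrib, Finset.prod_const, Finset.card_univ, ← mul_pow, Nat.reduceMul]
  have hS : 0 < ∏ j, s j := Finset.prod_pos fun j _ => Nat.pos_of_ne_zero (NeZero.ne _)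
  have hW : 0 < WW * 2 ^ k := by unfold WW; positivity
  obtain ⟨q, hq1, hq2⟩ : ∃ q : ℕ, 12 ^ k * ∏ j, s j ≤ q * (WW * 2 ^ k) ∧
      q * (WW * 2 ^ k) ≤ (WW + 1) * (12 ^ k * ∏ j, s j) := by
    refine ⟨12 ^ k * (∏ j, s j) / (WW * 2 ^ k) + 1, ?_, ?_⟩
    · rw [mul_comm (_ + 1)]
      exact (Nat.lt_mul_div_succ _ hW).le
    · have h1 := Nat.div_mul_le_self (12 ^ k * ∏ j, s j) (WW * 2 ^ k)
      have h2 : 2 ^ k ≤ 12 ^ k * ∏ j, s j :=
        (Nat.pow_le_pow_left (by norm_num) k).trans (Nat.le_mul_of_pos_right _ hS)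
      have h3 := Nat.mul_le_mul_left WW h2
      rw [add_mul, add_mul, one_mul, one_mul]
      omega
  have := can_tens h (q := q) (κ := fun j => Bool × (Fin 6 × ZMod (s j)))
    (by rw [hΩ, mul_assoc]; simpa using hq1) (fun j => lay_dft (s j) D (hD j))
    (fun ω => z (fun j => ((ω j).1, (ω j).2.1)) (fun j => (ω j).2.2))
  refine this.mono' ?_ ?_ ?_
  · rw [hΩ]
    have h1 : (q : ℝ) * (WW * 2 ^ k) ≤ (WW + 1) * (12 ^ k * ∏ j, s j : ℕ) := by exact_mod_cast hq2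
    have h2 : (0 : ℝ) ≤ 4 * D * t := by positivity
    have h3 := mul_le_mul_of_nonneg_left h1 h2
    push_cast at h3 ⊢
    nlinarith
  · rintro _ ⟨ω, rfl⟩
    exact Set.mem_iUnion.2 ⟨_, _, rfl⟩
  · refine Set.iUnion_subset fun β => ?_
    rintro _ ⟨γ, rfl⟩
    refine ⟨fun j => ((β j).1, (β j).2, γ j), ?_⟩
    let e : (∀ j, Bool × (Fin 6 × ZMod (s j))) ≃ (Fin k → Bool × Fin 6) × (∀ j, ZMod (s j)) :=
      { toFun := fun ω => (fun j => ((ω j).1, (ω j).2.1), fun j => (ω j).2.2)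
        invFun := fun p j => ((p.1 j).1, (p.1 j).2, p.2 j)
        left_inv := fun _ => rfl
        right_inv := fun _ => rfl }
    simp only [app, tens, Matrix.of_apply, Fm]
    rw [← e.symm.sum_comp, Fintype.sum_prod_type]
    simp only [e, Equiv.coe_fn_symm_mk, Prod.mk.eta, prod_ite_pi β, Pi.mul_apply, ite_smul,
      zero_smul]
    rw [Finset.sum_eq_single β (fun b _ hb => by simp [hb.symm]) (by simp)]
    simp

lemma can_Gamma {t : ℝ} (ht : 0 ≤ t) (h : Good V k t) (D : ℕ)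
    (hD : ∀ j, 144 * Nat.log 2 (s j) + 324 ≤ D) (a : ℕ) (ha : 12 ^ k ≤ 2 ^ a)
    (f : ZMod (2 ^ a) × (∀ j, ZMod (s j)) → V) :
    Can ((2 * (4 * D + 1 + 4 * D * t * (WW + 1)) + 2 * (40 * a + 1)) * (2 ^ a * ∏ j, s j : ℕ))
      (Set.range f)
      (Set.range (app (Fm fun p : ZMod (2 ^ a) × (∀ j, ZMod (s j)) =>
        psi (2 ^ a) p.1 * ∏ j, psi (s j) (p.2 j)) f)) := by
  have h12 : 0 < 12 ^ k := by positivity
  have h1 := (bc_prod s ht h D hD).family (B := ZMod (2 ^ a)) (q := 2 ^ a / 12 ^ k + 1) (by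
    rw [ZMod.card, mul_comm]
    exact (Nat.lt_mul_div_succ _ h12).le) (fun α γ => f (α, γ))
  set g := fun α => app (Fm fun x : ∀ j, ZMod (s j) => ∏ j, psi (s j) (x j)) fun γ => f (α, γ)
    with hg
  have h2 : ∀ γ, Can _ (⋃ α, Set.range (g α)) _ := fun γ =>
    (can_fft a fun α => g α γ).mono' le_rfl (by
      rintro _ ⟨α, rfl⟩
      exact Set.mem_iUnion.2 ⟨α, γ, rfl⟩) le_rfl
  refine (h1.trans' (Can.iUnion h2)).mono' ?_ ?_ ?_
  · have h3 : (2 ^ a / 12 ^ k + 1) * 12 ^ k ≤ 2 * 2 ^ a := by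
      have := Nat.div_mul_le_self (2 ^ a) (12 ^ k)
      rw [add_mul]; omega
    have h4 : ((2 ^ a / 12 ^ k + 1 : ℕ) : ℝ) * 12 ^ k ≤ 2 * 2 ^ a := by exact_mod_cast h3
    have h5 : (0 : ℝ) ≤ (4 * D + 1 + 4 * D * t * (WW + 1)) * (∏ j, s j : ℕ) := by positivity
    have h6 := mul_le_mul_of_nonneg_left h4 h5
    simp only [Fintype.card_pi, ZMod.card, Nat.cast_mul, Nat.cast_pow, Nat.cast_ofNat]
    nlinarith
  · refine Set.iUnion_subset fun α => ?_
    rintro _ ⟨γ, rfl⟩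
    exact ⟨_, rfl⟩
  · rintro _ ⟨⟨α, γ⟩, rfl⟩
    refine Set.mem_iUnion.2 ⟨γ, α, ?_⟩
    simp only [hg, app, Fm, Matrix.of_apply, Fintype.sum_prod_type, Finset.smul_sum, ← mul_smul,
      Prod.fst_mul, Prod.snd_mul]

end

lemma can_chirp {R : Type*} [CommRing R] [Fintype R] [DecidableEq R] {ψ : R → ℂ} (h : GoodChar ψ)
    (n : ℕ) (hinj : ∀ d : ℤ, |d| < 2 * n → (d : R) = 0 → d = 0) {ζ : ℂ} (hζ : ζ ≠ 0) {c : ℝ}
    (hc : ∀ f : R → V, Can c (Set.range f) (Set.range (app (Fm ψ) f))) (x : Fin n → V) :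
    Can (2 * n + 2 * c + Fintype.card R) (Set.range x)
      (Set.range (app (Matrix.of fun j k : Fin n => ζ ^ (j.val * k.val)) x)) := by
  obtain ⟨d, Λ, -, hd⟩ := h.chirp n hinj hζ
  have hi : ∀ i j : Fin n, ((i : ℕ) : R) = (j : ℕ) → i = j := fun i j hij => by
    have := hinj ((i : ℕ) - (j : ℕ)) (by have := i.2; have := j.2; rw [abs_lt]; omega)
      (by push_cast; rw [hij, sub_self])
    exact Fin.ext (by omega)
  let ext : R → V := fun γ => ∑ j : Fin n, if ((j : ℕ) : R) = γ then d j • x j else 0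
  have h1 : Can _ (Set.range x) (Set.range fun j : Fin n => d j • x j) :=
    Can.range fun j => Can.smul1 _ (Or.inr (Set.mem_range_self j))
  have h2 : Can c (Set.range fun j : Fin n => d j • x j) (Set.range (app (Fm ψ) ext)) := by
    refine (hc ext).mono le_rfl ?_ (Set.subset_insert _ _)
    rintro _ ⟨γ, rfl⟩
    by_cases hγ : ∃ j : Fin n, ((j : ℕ) : R) = γ
    · obtain ⟨j, rfl⟩ := hγ
      refine Or.inr ⟨j, ?_⟩
      simp only [ext]
      rw [Finset.sum_eq_single j (fun i _ hij => if_neg fun h => hij (hi _ _ h)) (by simp),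
        if_pos rfl]
    · exact Or.inl (Finset.sum_eq_zero fun j _ => if_neg fun h => hγ ⟨j, h⟩)
  have h3 : Can _ (Set.range (app (Fm ψ) ext)) (Set.range fun a => Λ a • app (Fm ψ) ext a) :=
    Can.range fun j => Can.smul1 _ (Or.inr (Set.mem_range_self j))
  have h4 := hc fun a => Λ a • app (Fm ψ) ext a
  have h5 : Can _ (Set.range (app (Fm ψ) fun a => Λ a • app (Fm ψ) ext a))
      (Set.range fun i : Fin n => d i • app (Fm ψ) (fun a => Λ a • app (Fm ψ) ext a) (-(i : ℕ))) :=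
    Can.range fun j => Can.smul1 _ (Or.inr (Set.mem_range_self _))
  refine ((((h1.trans' h2).trans' h3).trans' h4).trans' h5).mono' (le_of_eq ?_) le_rfl ?_
  · simp; ring
  · rintro _ ⟨i, rfl⟩
    refine ⟨i, ?_⟩
    have h6 : ∀ a, app (Fm ψ) ext a = ∑ j : Fin n, (ψ (a * (j : ℕ)) * d j) • x j := fun a => by
      simp only [app, ext, Fm, Matrix.of_apply, Finset.smul_sum, smul_ite, smul_zero]
      rw [Finset.sum_comm]
      simp [mul_smul]
    simp only [h6]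
    simp only [app, Fm, Matrix.of_apply, hd _ i.2 _ (Fin.is_lt _), Finset.smul_sum, ← mul_smul,
      Finset.mul_sum, Finset.sum_smul]
    rw [Finset.sum_comm]
    exact Finset.sum_congr rfl fun _ _ => Finset.sum_congr rfl fun _ _ => by congr 1; ring

theorem can_dft {k : ℕ} (s : Fin k → ℕ) (hs : ∀ j, Odd (s j))
    (hco : Pairwise (Function.onFun Nat.Coprime s)) {t : ℝ} (ht : 0 ≤ t) (h : Good V k t) (D : ℕ)
    (hD : ∀ j, 144 * Nat.log 2 (s j) + 324 ≤ D) (a : ℕ) (ha : 12 ^ k ≤ 2 ^ a) (n : ℕ)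
    (h1 : 2 * n ≤ 2 ^ a * ∏ j, s j) (h2 : 2 ^ a * ∏ j, s j ≤ 4 * n) {ζ : ℂ} (hζ : ζ ≠ 0)
    (x : Fin n → V) :
    Can ((6 + 16 * (4 * D + 1 + 4 * D * t * (WW + 1)) + 16 * (40 * a + 1)) * n) (Set.range x)
      (Set.range (app (Matrix.of fun j k : Fin n => ζ ^ (j.val * k.val)) x)) := by
  haveI : ∀ j, NeZero (s j) := fun j => ⟨(hs j).pos.ne'⟩
  have hG := (goodChar_psi (2 ^ a)).prod (GoodChar.pi fun j => goodChar_psi (s j))
  have := can_chirp hG n (fun d hd h0 => by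
    have e1 : ((2 ^ a : ℕ) : ℤ) ∣ d :=
      (ZMod.intCast_zmod_eq_zero_iff_dvd _ _).1 (congrArg Prod.fst h0)
    have e2 : ∀ j, ((s j : ℕ) : ℤ) ∣ d := fun j =>
      (ZMod.intCast_zmod_eq_zero_iff_dvd _ _).1 (congrFun (congrArg Prod.snd h0) j)
    rw [Int.natCast_dvd] at e1
    simp only [Int.natCast_dvd] at e2
    have e3 : (∏ j, s j) ∣ d.natAbs :=
      Finset.prod_dvd_of_isRelPrime (fun i _ j _ hij => Nat.coprime_iff_isRelPrime.1 (hco hij))
        fun j _ => e2 j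
    have e4 : Nat.Coprime (2 ^ a) (∏ j, s j) :=
      Nat.Coprime.pow_left _ (Nat.Coprime.prod_right fun j _ => (Nat.coprime_two_left).2 (hs j))
    have e5 := e4.mul_dvd_of_dvd_of_dvd e1 e3
    have e6 : d.natAbs < 2 ^ a * ∏ j, s j := by
      rw [abs_lt] at hd; omega
    have := Nat.eq_zero_of_dvd_of_lt e5 e6
    omega) hζ (can_Gamma s ht h D hD a ha) x
  refine this.le ?_
  have h3 : ((2 ^ a * ∏ j, s j : ℕ) : ℝ) ≤ 4 * n := by exact_mod_cast h2
  have h4 : (0 : ℝ) ≤ 2 * (4 * D + 1 + 4 * D * t * (WW + 1)) + 2 * (40 * a + 1) := by positivity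
  have h5 := mul_le_mul_of_nonneg_left h3 h4
  rw [Fintype.card_prod, Fintype.card_pi]
  simp only [ZMod.card]
  nlinarith

end Crest.Agent.Dft
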