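import Crest.Agent.Dft.Net

/-! The Walsh register system and the elementary symbols. -/

set_option autoImplicit false

namespace Crest.Agent.Dft
open Finset Complex Matrix

abbrev F2 := ZMod 2

lemma F2.cases (a : F2) : a = 0 ∨ a = 1 := by revert a; decide

lemma F2.one_add_one : (1 : F2) + 1 = 0 := by decide

lemma F2.add_self (a : F2) : a + a = 0 := by revert a; decide

lemma F2.mul_self (a : F2) : a * a = a := by revert a; decide

/-- The sign character. -/
noncomputable def sg (a : F2) : ℂ := if a = 0 then 1 else -1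

/-- `i ^ a`. -/
noncomputable def io (a : F2) : ℂ := if a = 0 then 1 else I

/-- The kernel of the square root of the swap. -/
noncomputable def ck (a : F2) : ℂ := if a = 0 then (1 + I) / 2 else (1 - I) / 2

@[simp] lemma sg_zero : sg 0 = 1 := by simp [sg]
@[simp] lemma sg_one : sg 1 = -1 := by simp [sg]
@[simp] lemma io_zero : io 0 = 1 := by simp [io]
@[simp] lemma io_one : io 1 = I := by simp [io]
@[simp] lemma ck_zero : ck 0 = (1 + I) / 2 := by simp [ck]
@[simp] lemma ck_one : ck 1 = (1 - I) / 2 := by simp [ck]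

lemma sg_add (a b : F2) : sg (a + b) = sg a * sg b := by
  rcases F2.cases a with rfl | rfl <;> rcases F2.cases b with rfl | rfl <;>
    simp [F2.one_add_one]

lemma sg_sum {ι : Type*} (s : Finset ι) (f : ι → F2) : sg (∑ i ∈ s, f i) = ∏ i ∈ s, sg (f i) := by
  classical
  induction s using Finset.induction_on with
  | empty => simp
  | insert x s hx ih => rw [Finset.sum_insert hx, Finset.prod_insert hx, sg_add, ih]

lemma sg_sq (a : F2) : sg a ^ 2 = 1 := by
  rcases F2.cases a with rfl | rfl <;> simp

lemma io_add (a b : F2) : io (a + b) = io a * io b * sg (a * b) := by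
  rcases F2.cases a with rfl | rfl <;> rcases F2.cases b with rfl | rfl <;>
    simp [F2.one_add_one]

lemma io_sq (a : F2) : io a ^ 2 = sg a := by
  rcases F2.cases a with rfl | rfl <;> simp

lemma sum_F2 {M : Type*} [AddCommMonoid M] (f : F2 → M) : ∑ a, f a = f 0 + f 1 :=
  Fin.sum_univ_two f

lemma io_eq (b : F2) : io b = ∑ a, ck a * sg (a * b) := by
  rw [sum_F2]
  rcases F2.cases b with rfl | rfl <;> simp <;> ring

/-- `i ^ |y|`. -/
noncomputable def om {K : Type*} [Fintype K] (y : K → F2) : ℂ := ∏ p, io (y p)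

/-- The kernel of the tensor power. -/
noncomputable def kk {K : Type*} [Fintype K] (h : K → F2) : ℂ := ∏ p, ck (h p)

/-- The tensor power of the square root of the swap. -/
noncomputable def Cm (K : Type*) [Fintype K] : Matrix (K → F2) (K → F2) ℂ :=
  Matrix.of fun g g' => kk (g' - g)

section
variable {K : Type*} [Fintype K]

@[simp] lemma om_zero : om (0 : K → F2) = 1 := by simp [om]

lemma om_add (x z : K → F2) : om (x + z) = om x * om z * sg (x ⬝ᵥ z) := by
  simp only [om, Pi.add_apply, io_add, Finset.prod_mul_distrib, dotProduct, sg_sum]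

lemma om_sq (x : K → F2) : om x ^ 2 = sg (x ⬝ᵥ x) := by
  simp only [om, ← Finset.prod_pow, io_sq, dotProduct, sg_sum, F2.mul_self]

lemma om_sum {ι : Type*} (s : Finset ι) (u : ι → K → F2)
    (h : ∀ i ∈ s, ∀ j ∈ s, i ≠ j → u i ⬝ᵥ u j = 0) : om (∑ i ∈ s, u i) = ∏ i ∈ s, om (u i) := by
  classical
  induction s using Finset.induction_on with
  | empty => simp
  | insert x s hx ih =>
    rw [Finset.sum_insert hx, Finset.prod_insert hx, om_add,
      ih fun i hi j hj => h i (by simp [hi]) j (by simp [hj]), dotProduct_sum,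
      Finset.sum_eq_zero fun j hj => h x (by simp) j (by simp [hj]) (by rintro rfl; exact hx hj)]
    simp

variable [DecidableEq K]

lemma om_eq (y : K → F2) : om y = ∑ h, kk h * sg (h ⬝ᵥ y) := by
  simp only [om, io_eq, kk, dotProduct, sg_sum, ← Finset.prod_mul_distrib]
  rw [Finset.prod_univ_sum, Fintype.piFinset_univ]

lemma sum_sg (g : K → F2) :
    ∑ y : K → F2, sg (g ⬝ᵥ y) = if g = 0 then (Fintype.card (K → F2) : ℂ) else 0 := by
  split_ifs with h
  · simp [h]
  · obtain ⟨p, hp⟩ := Function.ne_iff.1 h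
    have hp1 : g p = 1 := (F2.cases (g p)).resolve_left hp
    have := Fintype.sum_equiv (Equiv.addRight (Pi.single p (1 : F2) : K → F2))
      (fun y => - sg (g ⬝ᵥ y)) (fun y => sg (g ⬝ᵥ y)) (fun y => by
        simp [dotProduct_add, sg_add, hp1])
    rw [Finset.sum_neg_distrib] at this
    linear_combination (-1 / 2 : ℂ) * this

variable {V : Type} [AddCommGroup V] [Module ℂ V]

/-- The Walsh transform. -/
noncomputable def Phi (z : (K → F2) → V) : (K → F2) → V := fun g => ∑ y, sg (g ⬝ᵥ y) • z y

lemma Phi_surj (f : (K → F2) → V) : ∃ z, Phi z = f := by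
  refine ⟨(Fintype.card (K → F2) : ℂ)⁻¹ • Phi f, ?_⟩
  funext g
  have hc : (Fintype.card (K → F2) : ℂ) ≠ 0 := Nat.cast_ne_zero.2 Fintype.card_ne_zero
  simp only [Phi, Pi.smul_apply, Finset.smul_sum, ← mul_smul]
  rw [Finset.sum_comm]
  have : ∀ x : K → F2, ∑ y : K → F2, (sg (g ⬝ᵥ y) * ((Fintype.card (K → F2) : ℂ)⁻¹ * sg (y ⬝ᵥ x))) • f x
      = if x = g then f x else 0 := by
    intro x
    rw [← Finset.sum_smul]
    have h1 : ∀ y : K → F2, sg (g ⬝ᵥ y) * ((Fintype.card (K → F2) : ℂ)⁻¹ * sg (y ⬝ᵥ x)) =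
        (Fintype.card (K → F2) : ℂ)⁻¹ * sg ((g + x) ⬝ᵥ y) := by
      intro y
      rw [add_dotProduct, sg_add, dotProduct_comm y x]; ring
    simp only [h1, ← Finset.mul_sum, sum_sg]
    have h2 : g + x = 0 ↔ x = g := by
      constructor
      · intro h
        funext p
        have := congrFun h p
        simp only [Pi.add_apply, Pi.zero_apply] at this
        linear_combination this - F2.add_self (g p)
      · rintro rfl
        funext p
        exact F2.add_self _
    by_cases hx : x = g
    · rw [if_pos (h2.2 hx), if_pos hx, inv_mul_cancel₀ hc, one_smul]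
    · rw [if_neg (mt h2.1 hx), if_neg hx, mul_zero, zero_smul]
  simp only [this, Finset.sum_ite_eq', Finset.mem_univ, if_true]

variable (V K) in
/-- Registers on the Walsh side. -/
noncomputable def walsh : Sys V ((K → F2) → V) where
  co z := Set.range (Phi z)
  n := Fintype.card (K → F2)
  n_nonneg := Nat.cast_nonneg _
  hadd z z' := by
    have : ∀ g, Can 1 (Set.range (Phi z) ∪ Set.range (Phi z')) {Phi (z + z') g} := fun g => by
      have : Phi (z + z') g = Phi z g + Phi z' g := by
        simp [Phi, smul_add, Finset.sum_add_distrib]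
      rw [this]
      exact Can.add1 (by simp) (by simp)
    simpa using Can.range this
  hsmul a z := by
    have : ∀ g, Can 1 (Set.range (Phi z)) {Phi (a • z) g} := fun g => by
      have : Phi (a • z) g = a • Phi z g := by
        simp only [Phi, Pi.smul_apply, Finset.smul_sum]
        exact Finset.sum_congr rfl fun y _ => smul_comm _ _ _
      rw [this]
      exact Can.smul1 a (by simp)
    simpa using Can.range this
  hzero := by
    rintro _ ⟨g, rfl⟩
    simp [Phi]

lemma walsh_n : (walsh K V).n = 2 ^ Fintype.card K := by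
  simp [walsh]

lemma Phi_sg (v : K → F2) (z : (K → F2) → V) (g : K → F2) :
    Phi ((fun y : K → F2 => sg (v ⬝ᵥ y)) • z) g = Phi z (v + g) := by
  simp only [Phi, Pi.smul_apply', ← mul_smul, add_dotProduct, sg_add, mul_comm]

lemma St_sg (v : K → F2) : (walsh K V).St 0 (fun y : K → F2 => sg (v ⬝ᵥ y)) := by
  intro z
  refine Can.done le_rfl ?_
  rintro _ ⟨g, rfl⟩
  exact Or.inr ⟨v + g, (Phi_sg v z g).symm⟩

lemma St_io (v : K → F2) :
    (walsh K V).St ((walsh K V).n * 4) (fun y : K → F2 => io (v ⬝ᵥ y)) := by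
  intro z
  refine Can.range fun g => ?_
  have : Phi ((fun y : K → F2 => io (v ⬝ᵥ y)) • z) g = ∑ a : F2, ck a • Phi z (a • v + g) := by
    simp only [Phi, Pi.smul_apply', ← mul_smul, io_eq, Finset.mul_sum, Finset.sum_smul,
      Finset.smul_sum]
    rw [Finset.sum_comm]
    refine Finset.sum_congr rfl fun a _ => Finset.sum_congr rfl fun y _ => ?_
    rw [add_dotProduct, sg_add, smul_dotProduct, smul_eq_mul]
    congr 1; ring
  rw [this]
  refine (Can.lincomb univ _ _ fun a _ => Or.inr (Set.mem_range_self _)).le (le_of_eq ?_)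
  simp; norm_num

lemma Phi_om {J : Type*} [Fintype J] [DecidableEq J] (Pm : Matrix J K F2) (z : (K → F2) → V)
    (g : K → F2) :
    Phi ((fun y : K → F2 => om (Pm *ᵥ y)) • z) g = ∑ h, kk h • Phi z (h ᵥ* Pm + g) := by
  simp only [Phi, Pi.smul_apply', ← mul_smul, om_eq, Finset.mul_sum, Finset.sum_smul,
    Finset.smul_sum]
  rw [Finset.sum_comm]
  refine Finset.sum_congr rfl fun a _ => Finset.sum_congr rfl fun y _ => ?_
  rw [add_dotProduct, sg_add, dotProduct_mulVec]
  congr 1; ring

lemma St_om {J : Type*} [Fintype J] [DecidableEq J] (Pm : Matrix J K F2) (hP : Pm * Pmᵀ = 1)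
    {c : ℝ} {W q : ℕ} (h : BC V c W (Cm J))
    (hq : Fintype.card (K → F2) ≤ q * W * Fintype.card (J → F2)) :
    (walsh K V).St (q * c) (fun y : K → F2 => om (Pm *ᵥ y)) := by
  intro z
  have := BC.act kk h (fun (h : J → F2) (g : K → F2) => h ᵥ* Pm + g) (by simp)
    (fun g g' x => by rw [add_vecMul, add_assoc]) (fun g x hx => by
      have h1 : g ᵥ* Pm = 0 := by simpa using hx
      have h2 : g ᵥ* (Pm * Pmᵀ) = 0 := by rw [← vecMul_vecMul, h1, zero_vecMul]
      simpa [hP] using h2) hq (Phi z)
  refine this.mono' le_rfl le_rfl ?_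
  rintro _ ⟨g, rfl⟩
  exact ⟨g, (Phi_om Pm z g).symm⟩

lemma BC_of_RCan {c : ℝ} {W : ℕ} (B : Type*) [Fintype B] (hB : Fintype.card B = W)
    (h : ∀ z : B → (K → F2) → V, (walsh K V).RCan c (Set.range z)
      (Set.range fun b => (om : (K → F2) → ℂ) • z b)) : BC V c W (Cm K) := by
  refine BC.of_type B hB fun f => ?_
  choose z hz using fun b => Phi_surj (f b)
  have := h z
  simp only [Sys.RCan, Set.biUnion_range, walsh, hz] at this
  convert this using 4 with b
  funext g
  have h1 := Phi_om (1 : Matrix K K F2) (z b) g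
  simp only [one_mulVec, vecMul_one, hz] at h1
  refine Eq.trans ?_ h1.symm
  simp only [app, Cm, Matrix.of_apply]
  refine (Fintype.sum_equiv (Equiv.addRight g) _ _ fun x => ?_).symm
  simp

end

end Crest.Agent.Dft
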